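import Mathlib

/-!
Vectors, orthonormal bases and sets of mutually unbiased bases of `ℂ^6`, and the notion of a
matrix stabilising a basis.
-/

namespace Vale.Agent.P355

open scoped ComplexConjugate BigOperators

/-- The standard Hermitian inner product on `ℂ^6`, conjugate linear in the first slot. -/
def ip (v w : Fin 6 → ℂ) : ℂ := ∑ l, conj (v l) * w l

/-- Six vectors forming an orthonormal basis of `ℂ^6`. -/
def IsONB (B : Fin 6 → Fin 6 → ℂ) : Prop := ∀ i j, ip (B i) (B j) = if i = j then 1 else 0

/-- Two bases are unbiased: all squared moduli of inner products equal `1/6`. -/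
def Unbiased (B C : Fin 6 → Fin 6 → ℂ) : Prop := ∀ i j, Complex.normSq (ip (B i) (C j)) = 1 / 6

/-- A family of pairwise mutually unbiased orthonormal bases of `ℂ^6`. -/
def IsMUBSet {k : ℕ} (B : Fin k → Fin 6 → Fin 6 → ℂ) : Prop :=
  (∀ b, IsONB (B b)) ∧ ∀ a b, a ≠ b → Unbiased (B a) (B b)

/-- A matrix maps every vector of the basis to a multiple of a vector of the same basis,
permuting them. -/
def Stabilises (U : Matrix (Fin 6) (Fin 6) ℂ) (B : Fin 6 → Fin 6 → ℂ) : Prop :=
  ∃ (π : Equiv.Perm (Fin 6)) (c : Fin 6 → ℂ), ∀ i, U.mulVec (B i) = c i • B (π i)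

end Vale.Agent.P355
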