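import Mathlib
import Vale.Agent.P355.Defs

/-!
Parseval, the trace in a basis, and the consequences of unitarity.
-/

namespace Vale.Agent.P355

open scoped ComplexConjugate BigOperators
open Matrix

lemma ip_conj (v w : Fin 6 → ℂ) : conj (ip v w) = ip w v := by
  simp only [ip, map_sum, map_mul, Complex.conj_conj]
  exact Finset.sum_congr rfl fun l _ => by ring

lemma ip_smul_right (a : ℂ) (v w : Fin 6 → ℂ) : ip v (a • w) = a * ip v w := by
  simp only [ip, Pi.smul_apply, smul_eq_mul, Finset.mul_sum]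
  exact Finset.sum_congr rfl fun l _ => by ring

lemma ip_smul_left (a : ℂ) (v w : Fin 6 → ℂ) : ip (a • v) w = conj a * ip v w := by
  simp only [ip, Pi.smul_apply, smul_eq_mul, map_mul, Finset.mul_sum]
  exact Finset.sum_congr rfl fun l _ => by ring

lemma ip_self (v : Fin 6 → ℂ) : ip v v = ((∑ l, Complex.normSq (v l) : ℝ) : ℂ) := by
  simp only [ip, Complex.ofReal_sum, Complex.normSq_eq_conj_mul_self]

lemma IsONB.complete {B : Fin 6 → Fin 6 → ℂ} (hB : IsONB B) (l m : Fin 6) :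
    ∑ i, B i l * conj (B i m) = if l = m then 1 else 0 := by
  set A : Matrix (Fin 6) (Fin 6) ℂ := Matrix.of fun l i => B i l with hA
  have h : Aᴴ * A = 1 := by
    ext i j
    simp only [hA, mul_apply, conjTranspose_apply, of_apply, one_apply]
    exact hB i j
  have h' : A * Aᴴ = 1 := mul_eq_one_comm.1 h
  have := congrFun (congrFun h' l) m
  simpa [hA, mul_apply, one_apply] using this

/-- Parseval in an orthonormal basis. -/
lemma IsONB.parseval {B : Fin 6 → Fin 6 → ℂ} (hB : IsONB B) (v w : Fin 6 → ℂ) :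
    ∑ i, conj (ip (B i) v) * ip (B i) w = ip v w := by
  have h1 : ∀ i, conj (ip (B i) v) * ip (B i) w =
      ∑ l, ∑ m, conj (v l) * w m * (B i l * conj (B i m)) := by
    intro i
    rw [ip_conj, ip, ip, Finset.sum_mul]
    refine Finset.sum_congr rfl fun l _ => ?_
    rw [Finset.mul_sum]
    exact Finset.sum_congr rfl fun m _ => by ring
  simp only [h1]
  rw [Finset.sum_comm]
  simp only [ip]
  refine Finset.sum_congr rfl fun l _ => ?_
  rw [Finset.sum_comm]
  simp only [← Finset.mul_sum, hB.complete, mul_ite, mul_one, mul_zero, Finset.sum_ite_eq,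
    Finset.mem_univ, if_true]

lemma IsONB.parseval_normSq {B : Fin 6 → Fin 6 → ℂ} (hB : IsONB B) (v : Fin 6 → ℂ) :
    ∑ i, Complex.normSq (ip v (B i)) = ∑ l, Complex.normSq (v l) := by
  have h := hB.parseval v v
  rw [ip_self] at h
  apply Complex.ofReal_injective
  rw [← h, Complex.ofReal_sum]
  refine Finset.sum_congr rfl fun i _ => ?_
  rw [Complex.normSq_eq_conj_mul_self, ip_conj, ip_conj, mul_comm]

lemma IsONB.trace_eq {B : Fin 6 → Fin 6 → ℂ} (hB : IsONB B) (M : Matrix (Fin 6) (Fin 6) ℂ) :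
    ∑ i, ip (B i) (M *ᵥ B i) = M.trace := by
  simp only [ip, mulVec, dotProduct, Finset.mul_sum]
  rw [Finset.sum_comm]
  simp only [trace, diag_apply]
  refine Finset.sum_congr rfl fun l _ => ?_
  rw [Finset.sum_comm]
  have h : ∀ m, ∑ i, conj (B i l) * (M l m * B i m) = M l m * if m = l then 1 else 0 := by
    intro m
    rw [← hB.complete m l, Finset.mul_sum]
    exact Finset.sum_congr rfl fun i _ => by ring
  simp only [h, mul_ite, mul_one, mul_zero, Finset.sum_ite_eq', Finset.mem_univ, if_true]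

lemma IsONB.matrix_ext {B : Fin 6 → Fin 6 → ℂ} (hB : IsONB B) {M : Matrix (Fin 6) (Fin 6) ℂ}
    {t : ℂ} (h : ∀ i, M *ᵥ B i = t • B i) : M = t • (1 : Matrix (Fin 6) (Fin 6) ℂ) := by
  ext l m
  have e : ∀ i, ∑ k, M l k * B i k = t * B i l := fun i => by
    simpa [mulVec, dotProduct] using congrFun (h i) l
  have h1 : ∑ i, (∑ k, M l k * B i k) * conj (B i m) = M l m := by
    simp only [Finset.sum_mul, mul_assoc]
    rw [Finset.sum_comm]
    simp only [← Finset.mul_sum, hB.complete, mul_ite, mul_one, mul_zero, Finset.sum_ite_eq',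
      Finset.mem_univ, if_true]
  rw [← h1]
  simp only [e, mul_assoc, ← Finset.mul_sum, hB.complete, Matrix.smul_apply, one_apply, smul_eq_mul]

lemma ip_mulVec {U : Matrix (Fin 6) (Fin 6) ℂ} (hU : U ∈ Matrix.unitaryGroup (Fin 6) ℂ)
    (v w : Fin 6 → ℂ) : ip (U *ᵥ v) (U *ᵥ w) = ip v w := by
  have e : ∀ a b : Fin 6 → ℂ, ip a b = star a ⬝ᵥ b := fun a b => rfl
  have hU' : Uᴴ * U = 1 := Matrix.mem_unitaryGroup_iff'.1 hU
  rw [e, e, star_mulVec, dotProduct_mulVec, vecMul_vecMul, hU', vecMul_one]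

/-- The data of a unitary stabilising a basis. -/
def Acts (U : Matrix (Fin 6) (Fin 6) ℂ) (B : Fin 6 → Fin 6 → ℂ) (π : Equiv.Perm (Fin 6))
    (c : Fin 6 → ℂ) : Prop := ∀ i, U *ᵥ B i = c i • B (π i)

lemma Acts.normSq_coeff {U : Matrix (Fin 6) (Fin 6) ℂ} {B : Fin 6 → Fin 6 → ℂ}
    {π : Equiv.Perm (Fin 6)} {c : Fin 6 → ℂ} (h : Acts U B π c)
    (hU : U ∈ Matrix.unitaryGroup (Fin 6) ℂ) (hB : IsONB B) (i : Fin 6) :
    Complex.normSq (c i) = 1 := by
  have e := ip_mulVec hU (B i) (B i)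
  rw [h i, ip_smul_left, ip_smul_right, hB, hB, if_pos rfl, if_pos rfl, mul_one,
    ← Complex.normSq_eq_conj_mul_self] at e
  exact_mod_cast e

lemma Acts.pow {U : Matrix (Fin 6) (Fin 6) ℂ} {B : Fin 6 → Fin 6 → ℂ}
    {π : Equiv.Perm (Fin 6)} {c : Fin 6 → ℂ} (h : Acts U B π c) (n : ℕ) :
    ∃ d : Fin 6 → ℂ, Acts (U ^ n) B (π ^ n) d := by
  induction n with
  | zero => exact ⟨fun _ => 1, fun i => by simp⟩
  | succ n ih =>
    obtain ⟨d, hd⟩ := ih
    refine ⟨fun i => c i * d (π i), fun i => ?_⟩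
    rw [pow_succ, ← mulVec_mulVec, h i, mulVec_smul, hd (π i), smul_smul, pow_succ,
      Equiv.Perm.mul_apply]

/-- Eigenvalues of fixed vectors in two unbiased bases agree. -/
lemma Acts.fixed_eq {U : Matrix (Fin 6) (Fin 6) ℂ} {A B : Fin 6 → Fin 6 → ℂ}
    {π σ : Equiv.Perm (Fin 6)} {c d : Fin 6 → ℂ} (hA : Acts U A π c) (hB : Acts U B σ d)
    (hU : U ∈ Matrix.unitaryGroup (Fin 6) ℂ) (hOA : IsONB A) (hAB : Unbiased A B) {i j : Fin 6}
    (hi : π i = i) (hj : σ j = j) : c i = d j := by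
  have e := ip_mulVec hU (A i) (B j)
  rw [hA i, hB j, hi, hj, ip_smul_left, ip_smul_right] at e
  have hne : ip (A i) (B j) ≠ 0 := by
    intro h0
    have := hAB i j
    rw [h0, map_zero] at this
    norm_num at this
  have h1 : conj (c i) * d j = 1 := by
    apply mul_right_cancel₀ hne
    rw [mul_assoc, one_mul]; exact e
  have h2 : c i * conj (c i) = 1 := by
    rw [Complex.mul_conj, hA.normSq_coeff hU hOA i, Complex.ofReal_one]
  linear_combination (-(c i)) * h1 + (d j) * h2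

/-- Diagonal in two unbiased bases means scalar. -/
lemma Acts.scalar_of_two {U : Matrix (Fin 6) (Fin 6) ℂ} {A B : Fin 6 → Fin 6 → ℂ}
    {π σ : Equiv.Perm (Fin 6)} {c d : Fin 6 → ℂ} (hA : Acts U A π c) (hB : Acts U B σ d)
    (hU : U ∈ Matrix.unitaryGroup (Fin 6) ℂ) (hOA : IsONB A) (hAB : Unbiased A B)
    (hπ : ∀ i, π i = i) {j : Fin 6} (hj : σ j = j) : U = d j • (1 : Matrix (Fin 6) (Fin 6) ℂ) :=
  hOA.matrix_ext fun i => by
    rw [hA i, hπ i, hA.fixed_eq hB hU hOA hAB (hπ i) hj]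

/-- The trace is the sum of the phases of the fixed vectors. -/
lemma Acts.trace_eq {U : Matrix (Fin 6) (Fin 6) ℂ} {B : Fin 6 → Fin 6 → ℂ}
    {π : Equiv.Perm (Fin 6)} {c : Fin 6 → ℂ} (h : Acts U B π c) (hB : IsONB B) :
    U.trace = ∑ i, if π i = i then c i else 0 := by
  rw [← hB.trace_eq U]
  refine Finset.sum_congr rfl fun i _ => ?_
  rw [h i, ip_smul_right, hB i (π i)]
  by_cases hi : π i = i
  · simp [hi]
  · simp [hi, Ne.symm hi]

end Vale.Agent.P355
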