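import Mathlib

/-!
A discrete Fourier transform of a flat triple satisfies a Heron inequality, and two such triples
with constant pairwise sums are nearly uniform.
-/

namespace Vale.Agent.P355

open scoped ComplexConjugate

lemma cube_root {w : ℂ} (h : 1 + w + w ^ 2 = 0) : w ^ 3 = 1 := by
  linear_combination (w - 1) * h

lemma normSq_of_cube {t : ℂ} (h : t ^ 3 = 1) : Complex.normSq t = 1 := by
  have h1 : Complex.normSq t ^ 3 = 1 := by rw [← map_pow, h, map_one]
  exact (pow_eq_one_iff_of_nonneg (Complex.normSq_nonneg t) (by norm_num)).1 h1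

lemma conj_of_cube {t : ℂ} (h : t ^ 3 = 1) : conj t = t ^ 2 := by
  have h1 : t * conj t = 1 := by
    rw [Complex.mul_conj, normSq_of_cube h, Complex.ofReal_one]
  linear_combination (t ^ 2) * h1 - conj t * h

/-- The inequality of Heron for the squared lengths. -/
def HeronOK (a b c : ℝ) : Prop :=
  (a * b + b * c + c * a) ^ 2 ≤ 4 * (a * b * c) * (a + b + c)

/-- Flat triple: the squared moduli of its transform. -/
lemma flat_triple {w g0 g1 g2 : ℂ} {r : ℝ} (hw : 1 + w + w ^ 2 = 0)
    (h0 : Complex.normSq g0 = r) (h1 : Complex.normSq g1 = r) (h2 : Complex.normSq g2 = r) :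
    HeronOK (Complex.normSq (g0 + g1 + g2)) (Complex.normSq (g0 + w * g1 + w ^ 2 * g2))
        (Complex.normSq (g0 + w ^ 2 * g1 + w * g2)) ∧
      Complex.normSq (g0 + g1 + g2) + Complex.normSq (g0 + w * g1 + w ^ 2 * g2) +
        Complex.normSq (g0 + w ^ 2 * g1 + w * g2) = 9 * r := by
  have cw : conj w = w ^ 2 := conj_of_cube (cube_root hw)
  have cw2 : conj (w ^ 2) = w := by
    rw [map_pow, cw]; linear_combination (w ^ 2 - w) * hw
  have e0 : g0 * conj g0 = r := by rw [Complex.mul_conj, h0]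
  have e1 : g1 * conj g1 = r := by rw [Complex.mul_conj, h1]
  have e2 : g2 * conj g2 = r := by rw [Complex.mul_conj, h2]
  set S0 := g0 + g1 + g2 with hS0
  set S1 := g0 + w * g1 + w ^ 2 * g2 with hS1
  set S2 := g0 + w ^ 2 * g1 + w * g2 with hS2
  have c0 : conj S0 = conj g0 + conj g1 + conj g2 := by simp [hS0, map_add]
  have c1 : conj S1 = conj g0 + w ^ 2 * conj g1 + w * conj g2 := by
    simp only [hS1, map_add, map_mul, cw, cw2]
  have c2 : conj S2 = conj g0 + w * conj g1 + w ^ 2 * conj g2 := by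
    simp only [hS2, map_add, map_mul, cw, cw2]
  constructor
  · have hz : S0 * conj S1 + S1 * conj S2 + S2 * conj S0 = 0 := by
      rw [c0, c1, c2, hS0, hS1, hS2]
      linear_combination
        (g0 * conj g1 + g0 * conj g2 + g1 * conj g0 + g2 * conj g0 +
          w * (g1 * conj g2 + g2 * conj g1) + w * (w - 1) * (g2 * conj g2) + 3 * (r : ℂ)) * hw +
        3 * e0 + 3 * w ^ 2 * e1 + 3 * w * e2
    set x := S0 * conj S1 with hx
    set y := S1 * conj S2 with hy
    have hzz : S2 * conj S0 = -(x + y) := by linear_combination hz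
    have nx : Complex.normSq S0 * Complex.normSq S1 = Complex.normSq x := by
      rw [hx, map_mul, Complex.normSq_conj]
    have ny : Complex.normSq S1 * Complex.normSq S2 = Complex.normSq y := by
      rw [hy, map_mul, Complex.normSq_conj]
    have nz : Complex.normSq S2 * Complex.normSq S0 =
        Complex.normSq x + Complex.normSq y + 2 * (x * conj y).re := by
      rw [← Complex.normSq_add, ← Complex.normSq_neg (x + y), ← hzz, map_mul,
        Complex.normSq_conj]
    have hR : (x * conj y).re ^ 2 ≤ Complex.normSq x * Complex.normSq y := by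
      have := Complex.re_sq_le_normSq (x * conj y)
      rw [Complex.normSq_mul, Complex.normSq_conj] at this
      nlinarith [this]
    have key : 4 * (Complex.normSq S0 * Complex.normSq S1 * (Complex.normSq S1 * Complex.normSq S2)
        + Complex.normSq S1 * Complex.normSq S2 * (Complex.normSq S2 * Complex.normSq S0)
        + Complex.normSq S2 * Complex.normSq S0 * (Complex.normSq S0 * Complex.normSq S1)) ≥
        (Complex.normSq S0 * Complex.normSq S1 + Complex.normSq S1 * Complex.normSq S2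
          + Complex.normSq S2 * Complex.normSq S0) ^ 2 := by
      rw [nx, ny, nz]; nlinarith [hR]
    unfold HeronOK
    nlinarith [key]
  · apply Complex.ofReal_injective
    push_cast
    rw [← Complex.mul_conj, ← Complex.mul_conj, ← Complex.mul_conj, c0, c1, c2, hS0, hS1, hS2]
    linear_combination
      (g0 * conj g1 + g0 * conj g2 + g1 * conj g0 + g2 * conj g0 +
        (1 - w + w ^ 2) * (g1 * conj g2 + g2 * conj g1) +
        2 * (w - 1) * (g1 * conj g1 + g2 * conj g2)) * hw +
      3 * e0 + 3 * e1 + 3 * e2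

/-- The cap on the squares. -/
lemma cap {a0 a1 a2 b0 b1 b2 r : ℝ} (hr : 0 < r) (ha : HeronOK a0 a1 a2) (hb : HeronOK b0 b1 b2)
    (sa : a0 + a1 + a2 = 9 * r) (h0 : a0 + b0 = 6 * r) (h1 : a1 + b1 = 6 * r)
    (h2 : a2 + b2 = 6 * r) : a0 ^ 2 + a1 ^ 2 + a2 ^ 2 ≤ 36 * r ^ 2 := by
  obtain ⟨c, rfl⟩ : ∃ c, a0 = 3 * r * (1 + c) := ⟨a0 / (3 * r) - 1, by field_simp; ring⟩
  obtain ⟨d, rfl⟩ : ∃ d, a1 = 3 * r * (1 + d) := ⟨a1 / (3 * r) - 1, by field_simp; ring⟩
  obtain rfl : a2 = 3 * r * (1 - c - d) := by linarith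
  obtain rfl : b0 = 3 * r * (1 - c) := by linarith
  obtain rfl : b1 = 3 * r * (1 - d) := by linarith
  obtain rfl : b2 = 3 * r * (1 + c + d) := by linarith
  set s := c ^ 2 + d ^ 2 + (c + d) ^ 2 with hs
  unfold HeronOK at ha hb
  have hr4 : 0 < r ^ 4 := by positivity
  have h3 : 2 * (3 - s / 2) ^ 2 ≤ 12 * (2 - s) := by
    refine le_of_mul_le_mul_left ?_ (by positivity : (0 : ℝ) < 81 * r ^ 4)
    rw [hs]
    nlinarith [ha, hb]
  have h4 : s ≤ 1 := by nlinarith [sq_nonneg s]
  have h5 : (3 * r * (1 + c)) ^ 2 + (3 * r * (1 + d)) ^ 2 + (3 * r * (1 - c - d)) ^ 2 =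
      9 * r ^ 2 * (3 + s) := by rw [hs]; ring
  rw [h5]; nlinarith [sq_nonneg r]

end Vale.Agent.P355
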