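import Mathlib
import Vale.Agent.P355.Basic

/-!
A complete set of seven mutually unbiased bases of `ℂ^6` is a complex projective 2-design:
the second moment identity, proved from the equality case of the Welch bound.
-/

namespace Vale.Agent.P355

open scoped ComplexConjugate BigOperators ComplexOrder
open Matrix

variable {B : Fin 7 → Fin 6 → Fin 6 → ℂ}

/-- The matrix of rank one operators of the 42 vectors. -/
def frameMat (B : Fin 7 → Fin 6 → Fin 6 → ℂ) :
    Matrix (Fin 6 × Fin 6) (Fin 7 × Fin 6) ℂ :=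
  Matrix.of fun q v => B v.1 v.2 q.1 * conj (B v.1 v.2 q.2)

/-- The vectorised identity. -/
def vecId : Fin 6 × Fin 6 → ℂ := fun q => if q.1 = q.2 then 1 else 0

lemma frame_gram (B : Fin 7 → Fin 6 → Fin 6 → ℂ) (v w : Fin 7 × Fin 6) :
    ((frameMat B)ᴴ * frameMat B) v w =
      (Complex.normSq (ip (B v.1 v.2) (B w.1 w.2)) : ℂ) := by
  rw [← Complex.mul_conj, ip_conj, ip, ip, Finset.sum_mul_sum]
  simp only [mul_apply, conjTranspose_apply, frameMat, of_apply, Fintype.sum_prod_type,
    RCLike.star_def, map_mul, Complex.conj_conj]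
  exact Finset.sum_congr rfl fun l _ => Finset.sum_congr rfl fun m _ => by ring

lemma gram_sq (hB : IsMUBSet B) (v w : Fin 7 × Fin 6) :
    ((Complex.normSq (ip (B v.1 v.2) (B w.1 w.2)) : ℂ)) ^ 2 =
      if v.1 = w.1 then (if v.2 = w.2 then 1 else 0) else 1 / 36 := by
  by_cases hb : v.1 = w.1
  · rw [if_pos hb, hb, hB.1 w.1 v.2 w.2]
    split_ifs <;> simp
  · rw [if_neg hb, hB.2 _ _ hb]
    norm_num

lemma sum_gram_sq (hB : IsMUBSet B) :
    ∑ v : Fin 7 × Fin 6, ∑ w : Fin 7 × Fin 6,
      ((Complex.normSq (ip (B v.1 v.2) (B w.1 w.2)) : ℂ)) ^ 2 = 84 := by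
  simp only [gram_sq hB]
  simp only [Fintype.sum_prod_type]
  have h : ∀ b c : Fin 7, ∀ i : Fin 6, ∑ j : Fin 6,
      (if b = c then (if i = j then (1 : ℂ) else 0) else 1 / 36) =
        1 / 6 + if b = c then 5 / 6 else 0 := by
    intro b c i
    by_cases hbc : b = c
    · simp [hbc]; norm_num
    · simp [hbc]; norm_num
  simp only [h, Finset.sum_add_distrib, Finset.sum_ite_eq, Finset.mem_univ, if_true]
  simp
  norm_num

lemma frame_conj_vecId (hB : IsMUBSet B) : (frameMat B)ᴴ *ᵥ vecId = fun _ => 1 := by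
  funext v
  simp only [mulVec, dotProduct, conjTranspose_apply, frameMat, of_apply, vecId,
    Fintype.sum_prod_type, mul_ite, mul_one, mul_zero, Finset.sum_ite_eq, Finset.mem_univ, if_true]
  have h := hB.1 v.1 v.2 v.2
  rw [if_pos rfl] at h
  rw [← h, ip]
  exact Finset.sum_congr rfl fun l _ => by simp [mul_comm]

lemma vecId_star : star vecId = vecId := by
  funext q; simp only [vecId, Pi.star_apply]; split_ifs <;> simp

lemma vecId_dot : vecId ⬝ᵥ vecId = 6 := by
  simp [dotProduct, vecId, Fintype.sum_prod_type]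

/-- The frame operator of a complete set is the identity plus the projector of `vec I`. -/
theorem frame_eq (hB : IsMUBSet B) :
    frameMat B * (frameMat B)ᴴ = 1 + vecMulVec vecId vecId := by
  set W := frameMat B with hW
  set A := W * Wᴴ with hA
  set J : Matrix (Fin 6 × Fin 6) (Fin 6 × Fin 6) ℂ := vecMulVec vecId vecId with hJ
  have hAh : Aᴴ = A := by rw [hA, conjTranspose_mul, conjTranspose_conjTranspose]
  have hJh : Jᴴ = J := by rw [hJ, conjTranspose_vecMulVec, vecId_star]
  have gsym : ∀ v w : Fin 7 × Fin 6, Complex.normSq (ip (B w.1 w.2) (B v.1 v.2)) =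
      Complex.normSq (ip (B v.1 v.2) (B w.1 w.2)) := fun v w => by
    rw [← ip_conj, Complex.normSq_conj]
  have t1 : trace A = 42 := by
    rw [hA, trace_mul_comm]
    have : ∀ v : Fin 7 × Fin 6, (Wᴴ * W) v v = 1 := by
      intro v; rw [hW, frame_gram, hB.1 v.1 v.2 v.2, if_pos rfl, map_one, Complex.ofReal_one]
    simp [trace, this]
  have t2 : trace (A * A) = 84 := by
    rw [hA, Matrix.mul_assoc, trace_mul_comm, Matrix.mul_assoc, trace, ← sum_gram_sq hB]
    refine Finset.sum_congr rfl fun v _ => ?_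
    rw [diag_apply, ← Matrix.mul_assoc, ← Matrix.mul_assoc, Matrix.mul_assoc (Wᴴ * W), mul_apply]
    refine Finset.sum_congr rfl fun w _ => ?_
    rw [hW, frame_gram, frame_gram, gsym v w, sq]
  have t3 : trace (A * J) = 42 := by
    rw [hJ, mul_vecMulVec, trace_vecMulVec, hA, ← mulVec_mulVec, frame_conj_vecId hB]
    rw [dotProduct_comm, dotProduct_mulVec]
    have : vecId ᵥ* W = fun _ => 1 := by
      have h := congrArg star (frame_conj_vecId hB)
      rw [star_mulVec, conjTranspose_conjTranspose, vecId_star] at h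
      rw [h]; funext v; simp
    rw [this]; simp [dotProduct]
  have t4 : trace J = 6 := by rw [hJ, trace_vecMulVec, vecId_dot]
  have t5 : J * J = (6 : ℂ) • J := by
    rw [hJ, vecMulVec_mul_vecMulVec, vecId_dot]
    ext q r; simp [vecMulVec_apply]; ring
  have t6 : trace (J * A) = 42 := by rw [trace_mul_comm]; exact t3
  have hz : trace ((A - (1 + J))ᴴ * (A - (1 + J))) = 0 := by
    rw [conjTranspose_sub, conjTranspose_add, conjTranspose_one, hAh, hJh]
    simp only [Matrix.sub_mul, Matrix.mul_sub, Matrix.add_mul, Matrix.mul_add, Matrix.one_mul,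
      Matrix.mul_one, trace_sub, trace_add, trace_one, t1, t2, t3, t4, t5, t6, trace_smul]
    simp
    norm_num
  exact sub_eq_zero.1 (trace_conjTranspose_mul_self_eq_zero_iff.1 hz)

/-- Second moments of a complete set. -/
theorem moment (hB : IsMUBSet B) (M : Matrix (Fin 6) (Fin 6) ℂ) :
    ∑ b, ∑ i, Complex.normSq (ip (B b i) (M *ᵥ B b i)) =
      Complex.normSq M.trace + ∑ l, ∑ m, Complex.normSq (M l m) := by
  set W := frameMat B with hW
  let μ : Fin 6 × Fin 6 → ℂ := fun q => M q.2 q.1
  have hv : ∀ v : Fin 7 × Fin 6, (μ ᵥ* W) v = ip (B v.1 v.2) (M *ᵥ B v.1 v.2) := by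
    intro v
    simp only [vecMul, dotProduct, hW, frameMat, of_apply, μ, Fintype.sum_prod_type, ip, mulVec,
      Finset.mul_sum]
    rw [Finset.sum_comm]
    exact Finset.sum_congr rfl fun l _ => Finset.sum_congr rfl fun m _ => by ring
  have h1 : (μ ᵥ* W) ⬝ᵥ star (μ ᵥ* W) = μ ⬝ᵥ ((1 + vecMulVec vecId vecId) *ᵥ star μ) := by
    rw [star_vecMul, ← dotProduct_mulVec, mulVec_mulVec, hW, frame_eq hB]
  have hL : (μ ᵥ* W) ⬝ᵥ star (μ ᵥ* W) =
      ((∑ b, ∑ i, Complex.normSq (ip (B b i) (M *ᵥ B b i)) : ℝ) : ℂ) := by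
    simp only [dotProduct, Pi.star_apply, hv, Complex.ofReal_sum, Fintype.sum_prod_type,
      RCLike.star_def, Complex.mul_conj]
  have hR : μ ⬝ᵥ ((1 + vecMulVec vecId vecId) *ᵥ star μ) =
      ((Complex.normSq M.trace + ∑ l, ∑ m, Complex.normSq (M l m) : ℝ) : ℂ) := by
    have hid : μ ⬝ᵥ vecId = M.trace := by
      simp [dotProduct, vecId, μ, Fintype.sum_prod_type, trace]
    have hid' : vecId ⬝ᵥ star μ = conj M.trace := by
      simp [dotProduct, vecId, μ, Fintype.sum_prod_type, trace]
    have hd : μ ⬝ᵥ star μ = ((∑ l, ∑ m, Complex.normSq (M l m) : ℝ) : ℂ) := by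
      simp only [dotProduct, Pi.star_apply, μ, Fintype.sum_prod_type, RCLike.star_def,
        Complex.mul_conj, Complex.ofReal_sum]
      rw [Finset.sum_comm]
    rw [add_mulVec, one_mulVec, dotProduct_add, hd, vecMulVec_mulVec]
    simp only [dotProduct, Pi.smul_apply, MulOpposite.smul_eq_mul_unop, MulOpposite.unop_op]
    have hsum : ∑ q, μ q * (vecId q * ∑ q', vecId q' * star μ q') =
        M.trace * conj M.trace := by
      rw [← hid', ← hid]
      simp only [dotProduct, Finset.sum_mul]
      exact Finset.sum_congr rfl fun q _ => by ring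
    rw [Complex.ofReal_add, ← Complex.mul_conj M.trace, ← hsum]
    ring
  exact Complex.ofReal_injective (hL ▸ hR ▸ h1)

/-- Fourth powers of inner products against a complete set. -/
theorem moment_vec (hB : IsMUBSet B) (w : Fin 6 → ℂ) :
    ∑ b, ∑ i, Complex.normSq (ip w (B b i)) ^ 2 = 2 * (∑ l, Complex.normSq (w l)) ^ 2 := by
  have h := moment hB (vecMulVec w (star w))
  have e1 : ∀ v : Fin 6 → ℂ,
      ip v (vecMulVec w (star w) *ᵥ v) = (Complex.normSq (ip w v) : ℂ) := by
    intro v
    rw [← Complex.mul_conj, ip_conj]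
    simp only [ip, mulVec, dotProduct, vecMulVec_apply, Pi.star_apply, RCLike.star_def,
      Finset.mul_sum, Finset.sum_mul]
    exact Finset.sum_congr rfl fun l _ => Finset.sum_congr rfl fun m _ => by ring
  have e2 : trace (vecMulVec w (star w)) = ((∑ l, Complex.normSq (w l) : ℝ) : ℂ) := by
    simp [trace, vecMulVec_apply, Complex.mul_conj]
  simp only [e1, e2, Complex.normSq_ofReal, vecMulVec_apply, Pi.star_apply, map_mul,
    RCLike.star_def, Complex.normSq_conj, ← Finset.sum_mul_sum] at h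
  simp only [pow_two]
  rw [h]; ring

end Vale.Agent.P355
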