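import Mathlib

/-!
Sums of functions invariant under a fixed point free permutation of six points of order two or
three.
-/

namespace Vale.Agent.P355

lemma orbit_sum_three {π : Equiv.Perm (Fin 6)} (h3 : ∀ j, π (π (π j)) = j) (hfree : ∀ j, π j ≠ j)
    (j : Fin 6) : ∃ j', ∀ F : Fin 6 → ℝ, (∀ k, F (π k) = F k) → ∑ k, F k = 3 * F j + 3 * F j' := by
  classical
  have h2 : ∀ k, π (π k) ≠ k := fun k e => hfree k (by
    have := congrArg π e; rw [h3 k] at this; exact this.symm)
  let O : Fin 6 → Finset (Fin 6) := fun k => {k, π k, π (π k)}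
  have hcard : ∀ k, (O k).card = 3 := fun k => by
    rw [Finset.card_eq_three]
    exact ⟨k, π k, π (π k), (hfree k).symm, (h2 k).symm, (hfree (π k)).symm, rfl⟩
  have hclosed : ∀ k x, π x ∈ O k → x ∈ O k := by
    intro k x hx
    simp only [O, Finset.mem_insert, Finset.mem_singleton] at hx ⊢
    rcases hx with hx | hx | hx
    · refine Or.inr (Or.inr (π.injective ?_))
      rw [hx, h3]
    · exact Or.inl (π.injective hx)
    · exact Or.inr (Or.inl (π.injective hx))
  obtain ⟨j', hj'⟩ : ∃ j', j' ∉ O j := by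
    by_contra h
    push Not at h
    have : O j = Finset.univ := Finset.eq_univ_of_forall h
    have := hcard j
    simp_all
  have hdis : Disjoint (O j) (O j') := by
    rw [Finset.disjoint_right]
    intro x hx hxj
    simp only [O, Finset.mem_insert, Finset.mem_singleton] at hx
    rcases hx with rfl | rfl | rfl
    · exact hj' hxj
    · exact hj' (hclosed j _ hxj)
    · exact hj' (hclosed j _ (hclosed j _ hxj))
  have huniv : O j ∪ O j' = Finset.univ := by
    apply Finset.eq_univ_of_card
    rw [Finset.card_union_of_disjoint hdis, hcard, hcard, Fintype.card_fin]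
  refine ⟨j', fun F hF => ?_⟩
  have hO : ∀ k, ∑ x ∈ O k, F x = 3 * F k := fun k => by
    simp only [O]
    rw [Finset.sum_insert (by simp [(hfree k).symm, (h2 k).symm]),
      Finset.sum_pair (hfree (π k)).symm, hF (π k), hF k]
    ring
  rw [← huniv, Finset.sum_union hdis, hO, hO]

lemma orbit_sum_two {π : Equiv.Perm (Fin 6)} (h2 : ∀ j, π (π j) = j) (hfree : ∀ j, π j ≠ j)
    (j : Fin 6) : ∃ k l, k ≠ j ∧ k ≠ π j ∧ l ≠ j ∧ l ≠ π j ∧ l ≠ k ∧ l ≠ π k ∧
      ∀ F : Fin 6 → ℝ, (∀ m, F (π m) = F m) → ∑ m, F m = 2 * F j + 2 * F k + 2 * F l := by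
  classical
  let O : Fin 6 → Finset (Fin 6) := fun k => {k, π k}
  have hcard : ∀ k, (O k).card = 2 := fun k => Finset.card_pair (hfree k).symm
  have hclosed : ∀ k x, π x ∈ O k → x ∈ O k := by
    intro k x hx
    simp only [O, Finset.mem_insert, Finset.mem_singleton] at hx ⊢
    rcases hx with hx | hx
    · right; rw [← hx, h2]
    · exact Or.inl (π.injective hx)
  have hdisj : ∀ a b, b ∉ O a → Disjoint (O a) (O b) := by
    intro a b hb
    rw [Finset.disjoint_right]
    intro x hx hxa
    simp only [O, Finset.mem_insert, Finset.mem_singleton] at hx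
    rcases hx with rfl | rfl
    · exact hb hxa
    · exact hb (hclosed a _ hxa)
  obtain ⟨k, hk⟩ : ∃ k, k ∉ O j := by
    by_contra h
    push Not at h
    have : O j = Finset.univ := Finset.eq_univ_of_forall h
    have := hcard j
    simp_all
  obtain ⟨l, hl⟩ : ∃ l, l ∉ O j ∪ O k := by
    by_contra h
    push Not at h
    have he : O j ∪ O k = Finset.univ := Finset.eq_univ_of_forall h
    have := Finset.card_union_le (O j) (O k)
    rw [he, hcard, hcard, Finset.card_univ, Fintype.card_fin] at this
    omega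
  rw [Finset.mem_union] at hl
  push Not at hl
  have hjk := hdisj j k hk
  have hjl := hdisj j l hl.1
  have hkl := hdisj k l hl.2
  have huniv : O j ∪ O k ∪ O l = Finset.univ := by
    apply Finset.eq_univ_of_card
    rw [Finset.card_union_of_disjoint (Finset.disjoint_union_left.2 ⟨hjl, hkl⟩),
      Finset.card_union_of_disjoint hjk, hcard, hcard, hcard, Fintype.card_fin]
  have hk' : k ≠ j ∧ k ≠ π j := by simpa [O] using hk
  have hl1 : l ≠ j ∧ l ≠ π j := by simpa [O] using hl.1
  have hl2 : l ≠ k ∧ l ≠ π k := by simpa [O] using hl.2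
  refine ⟨k, l, hk'.1, hk'.2, hl1.1, hl1.2, hl2.1, hl2.2, fun F hF => ?_⟩
  have hO : ∀ m, ∑ x ∈ O m, F x = 2 * F m := fun m => by
    simp only [O]
    rw [Finset.sum_pair (hfree m).symm, hF m]
    ring
  rw [← huniv, Finset.sum_union (Finset.disjoint_union_left.2 ⟨hjl, hkl⟩),
    Finset.sum_union hjk, hO, hO, hO]

end Vale.Agent.P355
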