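import Mathlib
import Vale.Agent.P355.Moments
import Vale.Agent.P355.Heron
import Vale.Agent.P355.Orbits

/-!
The situation in which one basis of a complete set is the standard basis and a diagonal unitary
permutes the vectors of the six others without fixed vectors.
-/

namespace Vale.Agent.P355

open scoped ComplexConjugate BigOperators

/-- A diagonal symmetry of prime order `p` of a complete set containing the standard basis. -/
def DiagSym (B : Fin 7 → Fin 6 → Fin 6 → ℂ) (a : Fin 7) (p : ℕ) (u : Fin 6 → ℂ)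
    (π : Fin 7 → Equiv.Perm (Fin 6)) (c : Fin 7 → Fin 6 → ℂ) : Prop :=
  IsMUBSet B ∧ (∀ i l, B a i l = if l = i then 1 else 0) ∧ (∀ l, u l ^ p = 1) ∧
  (∑ l, u l = 0) ∧
  (∀ d, d ≠ a → ∀ i l, u l * B d i l = c d i * B d (π d i) l) ∧
  (∀ d, d ≠ a → ∀ i, π d i ≠ i) ∧ (∀ d, d ≠ a → π d ^ p = 1)

variable {B : Fin 7 → Fin 6 → Fin 6 → ℂ} {a : Fin 7} {p : ℕ} {u : Fin 6 → ℂ}
  {π : Fin 7 → Equiv.Perm (Fin 6)} {c : Fin 7 → Fin 6 → ℂ}

lemma ip_std (i : Fin 6) (v : Fin 6 → ℂ) :
    ip (fun l => if l = i then (1 : ℂ) else 0) v = v i := by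
  simp [ip]

lemma DiagSym.flat (H : DiagSym B a p u π c) {d : Fin 7} (hd : d ≠ a) (i l : Fin 6) :
    Complex.normSq (B d i l) = 1 / 6 := by
  have h := H.1.2 a d (Ne.symm hd) l i
  rwa [show B a l = fun m => if m = l then (1 : ℂ) else 0 from funext (H.2.1 l), ip_std] at h

lemma DiagSym.normSq_c (H : DiagSym B a p u π c) (hp : p ≠ 0) {d : Fin 7} (hd : d ≠ a)
    (i : Fin 6) : Complex.normSq (c d i) = 1 := by
  have h := congrArg Complex.normSq (H.2.2.2.2.1 d hd i 0)
  have hu : Complex.normSq (u 0) = 1 := by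
    have h1 : Complex.normSq (u 0) ^ p = 1 := by rw [← map_pow, H.2.2.1 0, map_one]
    exact (pow_eq_one_iff_of_nonneg (Complex.normSq_nonneg _) hp).1 h1
  rw [map_mul, map_mul, hu, H.flat hd, H.flat hd] at h
  linarith

lemma DiagSym.ip_shift (H : DiagSym B a p u π c) {d : Fin 7} (hd : d ≠ a) (v : Fin 6 → ℂ)
    (j : Fin 6) : (∑ l, conj (v l) * (u l * B d j l)) = c d j * ip v (B d (π d j)) := by
  simp only [H.2.2.2.2.1 d hd j, ip, Finset.mul_sum]
  exact Finset.sum_congr rfl fun l _ => by ring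

end Vale.Agent.P355
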