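import Mathlib
import Vale.Agent.P355.DiagSetup

/-!
A diagonal symmetry of order three of a complete set is impossible.
-/

namespace Vale.Agent.P355

open scoped ComplexConjugate BigOperators

variable {B : Fin 7 → Fin 6 → Fin 6 → ℂ} {a : Fin 7} {u : Fin 6 → ℂ}
  {π : Fin 7 → Equiv.Perm (Fin 6)} {c : Fin 7 → Fin 6 → ℂ}

/-- The spectral indicator of a cube root of unity. -/
noncomputable def spec3 (t : ℂ) : ℂ := (1 + t + t ^ 2) / 3

lemma spec3_facts {t : ℂ} (h : t ^ 3 = 1) :
    spec3 t * t = spec3 t ∧ conj (spec3 t) = spec3 t ∧ spec3 t * spec3 t = spec3 t := by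
  have hc := conj_of_cube h
  refine ⟨?_, ?_, ?_⟩
  · simp only [spec3]; linear_combination h / 3
  · simp only [spec3, map_div₀, map_add, map_pow, map_one, map_ofNat, hc]
    linear_combination t * h / 3
  · simp only [spec3]; linear_combination (t + 2) * h / 9

/-- The restriction of a vector to one spectral class. -/
noncomputable def part3 (u : Fin 6 → ℂ) (z : ℂ) (h : Fin 6 → ℂ) : Fin 6 → ℂ :=
  fun l => spec3 (z * u l) * h l

/-- The squared overlap of a class part with a vector. -/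
noncomputable def X3 (B : Fin 7 → Fin 6 → Fin 6 → ℂ) (u : Fin 6 → ℂ) (b : Fin 7) (z : ℂ)
    (d : Fin 7) (j : Fin 6) : ℝ :=
  Complex.normSq (ip (part3 u z (B b 0)) (B d j))

section

variable (H : DiagSym B a 3 u π c) {b : Fin 7} (hb : b ≠ a) {z : ℂ} (hz : z ^ 3 = 1)

include H hz

lemma zu_cube (l : Fin 6) : (z * u l) ^ 3 = 1 := by
  rw [mul_pow, hz, H.2.2.1 l, one_mul]

lemma sum_spec3 : ∑ l, spec3 (z * u l) = 2 := by
  have h2 : ∑ l, u l ^ 2 = 0 := by
    have := congrArg conj H.2.2.2.1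
    simp only [map_sum, map_zero, conj_of_cube (H.2.2.1 _)] at this
    exact this
  simp only [spec3, mul_pow, ← Finset.sum_div, Finset.sum_add_distrib, ← Finset.mul_sum,
    H.2.2.2.1, h2]
  simp; norm_num

include hb

lemma part3_norm : ∑ l, Complex.normSq (part3 u z (B b 0) l) = 1 / 3 := by
  apply Complex.ofReal_injective
  have h6 : ∀ l, (Complex.normSq (part3 u z (B b 0) l) : ℂ) = spec3 (z * u l) * (1 / 6) := by
    intro l
    obtain ⟨-, hcj, hid⟩ := spec3_facts (zu_cube H hz l)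
    rw [part3, Complex.normSq_mul, H.flat hb]
    push_cast
    rw [← Complex.mul_conj, hcj, hid]
  rw [Complex.ofReal_sum]
  simp only [h6, ← Finset.sum_mul, sum_spec3 H hz]
  norm_num

omit hb

lemma overlap3 (d : Fin 7) (j : Fin 6) :
    ip (part3 u z (B b 0)) (B d j) = ∑ l, spec3 (z * u l) * (conj (B b 0 l) * B d j l) := by
  refine Finset.sum_congr rfl fun l _ => ?_
  rw [part3, map_mul, (spec3_facts (zu_cube H hz l)).2.1, mul_assoc]

lemma X3_invariant {d : Fin 7} (hd : d ≠ a) (j : Fin 6) :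
    X3 B u b z d (π d j) = X3 B u b z d j := by
  have e : z * (c d j * ip (part3 u z (B b 0)) (B d (π d j))) =
      ip (part3 u z (B b 0)) (B d j) := by
    rw [← H.ip_shift hd, Finset.mul_sum, overlap3 H hz]
    refine Finset.sum_congr rfl fun l _ => ?_
    obtain ⟨ht, hcj, -⟩ := spec3_facts (zu_cube H hz l)
    rw [part3, map_mul, hcj]
    linear_combination (conj (B b 0 l) * B d j l) * ht
  have := congrArg Complex.normSq e
  rwa [Complex.normSq_mul, Complex.normSq_mul, normSq_of_cube hz,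
    H.normSq_c (by norm_num) hd, one_mul, one_mul] at this

end

lemma X3_transform (H : DiagSym B a 3 u π c) {b d : Fin 7} (hd : d ≠ a) (hbd : b ≠ d)
    (j : Fin 6) :
    ∃ g0 g1 g2 : ℂ, Complex.normSq g0 = 1 / 6 ∧ Complex.normSq g1 = 1 / 6 ∧
      Complex.normSq g2 = 1 / 6 ∧ ∀ z : ℂ, z ^ 3 = 1 →
        X3 B u b z d j = Complex.normSq (g0 + z * g1 + z ^ 2 * g2) / 9 := by
  refine ⟨ip (B b 0) (B d j), ∑ l, conj (B b 0 l) * (u l * B d j l),
    ∑ l, conj (B b 0 l) * (u l * (u l * B d j l)), H.1.2 b d hbd _ _, ?_, ?_, ?_⟩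
  · rw [H.ip_shift hd, Complex.normSq_mul, H.normSq_c (by norm_num) hd, one_mul]
    exact H.1.2 b d hbd _ _
  · have e : (∑ l, conj (B b 0 l) * (u l * (u l * B d j l))) =
        c d j * (c d (π d j) * ip (B b 0) (B d (π d (π d j)))) := by
      rw [← H.ip_shift hd, Finset.mul_sum]
      refine Finset.sum_congr rfl fun l _ => ?_
      rw [H.2.2.2.2.1 d hd j l]; ring
    rw [e, Complex.normSq_mul, Complex.normSq_mul, H.normSq_c (by norm_num) hd,
      H.normSq_c (by norm_num) hd, one_mul, one_mul]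
    exact H.1.2 b d hbd _ _
  · intro z hz
    have e : ip (part3 u z (B b 0)) (B d j) = (ip (B b 0) (B d j) +
        z * (∑ l, conj (B b 0 l) * (u l * B d j l)) +
        z ^ 2 * ∑ l, conj (B b 0 l) * (u l * (u l * B d j l))) / 3 := by
      rw [overlap3 H hz, ip, Finset.mul_sum, Finset.mul_sum, ← Finset.sum_add_distrib,
        ← Finset.sum_add_distrib, Finset.sum_div]
      exact Finset.sum_congr rfl fun l _ => by simp only [spec3]; ring
    rw [X3, e, Complex.normSq_div, show Complex.normSq 3 = 9 by norm_num [Complex.normSq_ofNat]]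

theorem no_diag_three (H : DiagSym B a 3 u π c) : False := by
  obtain ⟨b, hb⟩ := exists_ne a
  set w : ℂ := ⟨-1 / 2, Real.sqrt 3 / 2⟩ with hwdef
  have hw : 1 + w + w ^ 2 = 0 := by
    have h3 := Real.sq_sqrt (show (0 : ℝ) ≤ 3 by norm_num)
    apply Complex.ext <;> simp [hwdef, pow_two] <;> nlinarith [h3]
  have hw3 : w ^ 3 = 1 := cube_root hw
  have hw6 : (w ^ 2) ^ 3 = 1 := by rw [← pow_mul, mul_comm, pow_mul, hw3, one_pow]
  have h1 : (1 : ℂ) ^ 3 = 1 := one_pow 3
  have h33 : ∀ d, d ≠ a → ∀ j, π d (π d (π d j)) = j := fun d hd j => by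
    have := Equiv.congr_fun (H.2.2.2.2.2.2 d hd) j
    simpa [pow_succ, Equiv.Perm.mul_apply] using this
  have total : ∀ z : ℂ, z ^ 3 = 1 → ∀ d, ∑ j, X3 B u b z d j = 1 / 3 := fun z hz d => by
    rw [← part3_norm H hb hz]; exact (H.1.1 d).parseval_normSq _
  have self_ : ∀ z : ℂ, z ^ 3 = 1 → ∑ j, X3 B u b z b j ^ 2 = 1 / 27 := by
    intro z hz
    have e : X3 B u b z b 0 = 1 / 9 := by
      have e1 : ip (part3 u z (B b 0)) (B b 0) = 1 / 3 := by
        rw [overlap3 H hz]
        simp only [← Complex.normSq_eq_conj_mul_self, H.flat hb, ← Finset.sum_mul, sum_spec3 H hz]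
        norm_num
      rw [X3, e1]; norm_num [Complex.normSq_div, Complex.normSq_ofNat]
    obtain ⟨j', hj'⟩ := orbit_sum_three (h33 b hb) (H.2.2.2.2.2.1 b hb) 0
    have hinv := X3_invariant H (b := b) hz hb
    have ht := total z hz b
    rw [hj' _ hinv, e] at ht
    have e' : X3 B u b z b j' = 0 := by linarith
    rw [hj' _ (fun k => by rw [hinv k]), e, e']; norm_num
  have std_ : ∀ z : ℂ, z ^ 3 = 1 → ∑ j, X3 B u b z a j ^ 2 = 1 / 18 := by
    intro z hz
    apply Complex.ofReal_injective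
    have h6 : ∀ j, ((X3 B u b z a j ^ 2 : ℝ) : ℂ) = spec3 (z * u j) * (1 / 36) := by
      intro j
      obtain ⟨-, hcj, hid⟩ := spec3_facts (zu_cube H hz j)
      have e : ip (part3 u z (B b 0)) (B a j) = spec3 (z * u j) * conj (B b 0 j) := by
        rw [← ip_conj, show B a j = fun m => if m = j then (1 : ℂ) else 0 from funext (H.2.1 j),
          ip_std, part3, map_mul, hcj]
      rw [X3, e, Complex.normSq_mul, Complex.normSq_conj, H.flat hb]
      push_cast
      rw [← Complex.mul_conj, hcj, hid]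
      linear_combination (1 / 36 : ℂ) * hid
    rw [Complex.ofReal_sum]
    simp only [h6, ← Finset.sum_mul, sum_spec3 H hz]
    norm_num
  set T : Fin 7 → ℝ := fun d =>
    ∑ j, (X3 B u b 1 d j ^ 2 + X3 B u b w d j ^ 2 + X3 B u b (w ^ 2) d j ^ 2) with hT
  have other : ∀ d, d ≠ a → d ≠ b → T d ≤ 6 / 81 := by
    intro d hd hdb
    obtain ⟨j', hj'⟩ := orbit_sum_three (h33 d hd) (H.2.2.2.2.2.1 d hd) 0
    have inv : ∀ z : ℂ, z ^ 3 = 1 → ∀ k, X3 B u b z d (π d k) = X3 B u b z d k :=
      fun z hz k => X3_invariant H hz hd k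
    have pair : ∀ z : ℂ, z ^ 3 = 1 → X3 B u b z d 0 + X3 B u b z d j' = 1 / 9 := fun z hz => by
      have := total z hz d
      rw [hj' _ (inv z hz)] at this; linarith
    obtain ⟨g0, g1, g2, hg0, hg1, hg2, hg⟩ := X3_transform H (b := b) hd hdb.symm 0
    obtain ⟨k0, k1, k2, hk0, hk1, hk2, hk⟩ := X3_transform H (b := b) hd hdb.symm j'
    have hw4 : (w ^ 2) ^ 2 = w := by linear_combination w * hw3
    obtain ⟨hA, sA⟩ := flat_triple hw hg0 hg1 hg2
    obtain ⟨hB, sB⟩ := flat_triple hw hk0 hk1 hk2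
    have p0 := pair 1 h1; have p1 := pair w hw3; have p2 := pair _ hw6
    rw [hg 1 h1, hk 1 h1] at p0; rw [hg w hw3, hk w hw3] at p1; rw [hg _ hw6, hk _ hw6] at p2
    simp only [one_pow, one_mul, hw4] at p0 p1 p2
    have c1 := cap (show (0 : ℝ) < 1 / 6 by norm_num) hA hB sA (by linarith) (by linarith)
      (by linarith)
    have c2 := cap (show (0 : ℝ) < 1 / 6 by norm_num) hB hA sB (by linarith) (by linarith)
      (by linarith)
    rw [hT]; dsimp only
    rw [hj' _ (fun k => by rw [inv 1 h1 k, inv w hw3 k, inv _ hw6 k]), hg 1 h1, hg w hw3,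
      hg _ hw6, hk 1 h1, hk w hw3, hk _ hw6]
    simp only [one_pow, one_mul, hw4]
    linarith
  have tot : ∑ d, T d = 2 / 3 := by
    simp only [hT, Finset.sum_add_distrib]
    simp only [X3, moment_vec H.1, part3_norm H hb h1, part3_norm H hb hw3, part3_norm H hb hw6]
    norm_num
  have hTa : T a = 1 / 6 := by
    simp only [hT, Finset.sum_add_distrib, std_ _ h1, std_ _ hw3, std_ _ hw6]; norm_num
  have hTb : T b = 1 / 9 := by
    simp only [hT, Finset.sum_add_distrib, self_ _ h1, self_ _ hw3, self_ _ hw6]; norm_num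
  have hle : ∀ d, T d ≤ 6 / 81 + (if d = a then 1 / 6 - 6 / 81 else 0) +
      (if d = b then 1 / 9 - 6 / 81 else 0) := by
    intro d
    by_cases hda : d = a
    · subst hda; rw [if_pos rfl, if_neg (Ne.symm hb), hTa]; norm_num
    by_cases hdb : d = b
    · subst hdb; rw [if_neg hda, if_pos rfl, hTb]; norm_num
    rw [if_neg hda, if_neg hdb]; linarith [other d hda hdb]
  have := Finset.sum_le_sum (s := Finset.univ) fun d _ => hle d
  rw [tot] at this
  simp only [Finset.sum_add_distrib, Finset.sum_ite_eq', Finset.mem_univ, if_true,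
    Finset.sum_const, Finset.card_univ, Fintype.card_fin, nsmul_eq_mul] at this
  norm_num at this

end Vale.Agent.P355
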