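import Mathlib
import Vale.Agent.P355.DiagSetup

/-!
A diagonal symmetry of order two of a complete set is impossible.
-/

namespace Vale.Agent.P355

open scoped ComplexConjugate BigOperators

/-- Three mutually orthogonal flat triples have ratios given by the two primitive cube roots. -/
lemma orth_triple {q0 q1 q2 : Fin 3 → ℂ} {r : ℝ} (hr : r ≠ 0)
    (f0 : ∀ i, Complex.normSq (q0 i) = r) (f1 : ∀ i, Complex.normSq (q1 i) = r)
    (f2 : ∀ i, Complex.normSq (q2 i) = r) (o01 : ∑ i, conj (q0 i) * q1 i = 0)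
    (o02 : ∑ i, conj (q0 i) * q2 i = 0) (o12 : ∑ i, conj (q1 i) * q2 i = 0) :
    ∃ w s t : ℂ, 1 + w + w ^ 2 = 0 ∧ Complex.normSq s = 1 ∧ Complex.normSq t = 1 ∧
      q1 0 = s * q0 0 ∧ q1 1 = s * (w * q0 1) ∧ q1 2 = s * (w ^ 2 * q0 2) ∧
      q2 0 = t * q0 0 ∧ q2 1 = t * (w ^ 2 * q0 1) ∧ q2 2 = t * (w * q0 2) := by
  have ne0 : ∀ i, q0 i ≠ 0 := fun i h => hr (by rw [← f0 i, h, map_zero])
  have hu : ∀ i, Complex.normSq (q1 i / q0 i) = 1 := fun i => by
    rw [map_div₀, f1, f0, div_self hr]
  have hv : ∀ i, Complex.normSq (q2 i / q0 i) = 1 := fun i => by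
    rw [map_div₀, f2, f0, div_self hr]
  have rc : (r : ℂ) ≠ 0 := Complex.ofReal_ne_zero.2 hr
  have su : q1 0 / q0 0 + q1 1 / q0 1 + q1 2 / q0 2 = 0 := by
    have e : ∀ i, conj (q0 i) * q1 i = (r : ℂ) * (q1 i / q0 i) := fun i => by
      rw [← f0 i, ← Complex.mul_conj]; field_simp [ne0 i]
    rw [Fin.sum_univ_three, e, e, e, ← mul_add, ← mul_add] at o01
    exact (mul_eq_zero.1 o01).resolve_left rc
  have sv : q2 0 / q0 0 + q2 1 / q0 1 + q2 2 / q0 2 = 0 := by
    have e : ∀ i, conj (q0 i) * q2 i = (r : ℂ) * (q2 i / q0 i) := fun i => by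
      rw [← f0 i, ← Complex.mul_conj]; field_simp [ne0 i]
    rw [Fin.sum_univ_three, e, e, e, ← mul_add, ← mul_add] at o02
    exact (mul_eq_zero.1 o02).resolve_left rc
  have suv : conj (q1 0 / q0 0) * (q2 0 / q0 0) + conj (q1 1 / q0 1) * (q2 1 / q0 1) +
      conj (q1 2 / q0 2) * (q2 2 / q0 2) = 0 := by
    have e : ∀ i, conj (q1 i) * q2 i = (r : ℂ) * (conj (q1 i / q0 i) * (q2 i / q0 i)) := fun i => by
      have hne := ne0 i
      have hne' : conj (q0 i) ≠ 0 := (map_ne_zero _).2 hne
      rw [← f0 i, ← Complex.mul_conj, map_div₀]; field_simp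
    rw [Fin.sum_univ_three, e, e, e, ← mul_add, ← mul_add] at o12
    exact (mul_eq_zero.1 o12).resolve_left rc
  -- normalise a triple of unit numbers with zero sum
  have key : ∀ x y z : ℂ, Complex.normSq x = 1 → Complex.normSq y = 1 → Complex.normSq z = 1 →
      x + y + z = 0 → ∃ w, 1 + w + w ^ 2 = 0 ∧ y = x * w ∧ z = x * w ^ 2 := by
    intro x y z hx hy hz hsum
    have xne : x ≠ 0 := fun h => by rw [h, map_zero] at hx; norm_num at hx
    set w := y / x with hw
    have hy' : y = x * w := by rw [hw]; field_simp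
    have hz' : z = x * (-(1 + w)) := by linear_combination hsum - hy'
    have nw : w * conj w = 1 := by
      rw [Complex.mul_conj, hw, map_div₀, hx, hy, div_self one_ne_zero, Complex.ofReal_one]
    have nz : (1 + w) * (1 + conj w) = 1 := by
      have h1 : Complex.normSq (1 + w) = 1 := by
        rw [← Complex.normSq_neg]
        have := congrArg Complex.normSq hz'
        rw [map_mul, hx, one_mul, hz] at this
        exact this.symm
      have h2 := Complex.mul_conj (1 + w)
      rw [map_add, map_one, h1, Complex.ofReal_one] at h2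
      exact h2
    have h0 : 1 + w + w ^ 2 = 0 := by linear_combination w * nz - (1 + w) * nw
    exact ⟨w, h0, hy', by linear_combination hz' - x * h0⟩
  obtain ⟨w, hw, hu1, hu2⟩ := key _ _ _ (hu 0) (hu 1) (hu 2) su
  obtain ⟨y, hy, hv1, hv2⟩ := key _ _ _ (hv 0) (hv 1) (hv 2) sv
  have hy2 : y = w ^ 2 := by
    have hroot : (y - w) * (y - w ^ 2) = 0 := by
      linear_combination hy - y * hw + (w - 1) * hw
    rcases mul_eq_zero.1 hroot with h | h
    · exfalso
      have hyw : y = w := sub_eq_zero.1 h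
      subst hyw
      rw [hu1, hu2, hv1, hv2] at suv
      have n0 : conj (q1 0 / q0 0) * (q2 0 / q0 0) ≠ 0 := by
        refine mul_ne_zero ((map_ne_zero _).2 ?_) ?_ <;> intro h <;>
          [have := hu 0; have := hv 0] <;> rw [h, map_zero] at this <;> norm_num at this
      have e1 : conj y * y = 1 := by
        rw [mul_comm, Complex.mul_conj, normSq_of_cube (cube_root hy), Complex.ofReal_one]
      apply n0
      rw [map_mul, map_mul, map_pow] at suv
      linear_combination suv / 3 - (conj (q1 0 / q0 0) * (q2 0 / q0 0)) * (conj y * y + 2) / 3 * e1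
    · exact sub_eq_zero.1 h
  subst hy2
  have mk : ∀ q : Fin 3 → ℂ, ∀ i, q i = q i / q0 i * q0 i := fun q i =>
    (div_mul_cancel₀ _ (ne0 i)).symm
  refine ⟨w, q1 0 / q0 0, q2 0 / q0 0, hw, hu 0, hv 0, mk q1 0, ?_, ?_, mk q2 0, ?_, ?_⟩
  · rw [← mul_assoc, ← hu1]; exact mk q1 1
  · rw [← mul_assoc, ← hu2]; exact mk q1 2
  · rw [← mul_assoc, ← hv1]; exact mk q2 1
  · rw [← mul_assoc, show w = (w ^ 2) ^ 2 by linear_combination (-w) * cube_root hw, ← hv2]
    exact mk q2 2

variable {B : Fin 7 → Fin 6 → Fin 6 → ℂ} {a : Fin 7} {u : Fin 6 → ℂ}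
  {π : Fin 7 → Equiv.Perm (Fin 6)} {c : Fin 7 → Fin 6 → ℂ}

/-- The spectral indicator of a sign. -/
noncomputable def spec2 (t : ℂ) : ℂ := (1 + t) / 2

/-- The squared overlap of a class part with a vector. -/
noncomputable def X2 (B : Fin 7 → Fin 6 → Fin 6 → ℂ) (u : Fin 6 → ℂ) (b : Fin 7) (z : ℂ)
    (d : Fin 7) (j : Fin 6) : ℝ :=
  Complex.normSq (ip (fun l => spec2 (z * u l) * B b 0 l) (B d j))

lemma spec2_facts (H : DiagSym B a 2 u π c) {z : ℂ} (hz : z ^ 2 = 1) (l : Fin 6) :
    spec2 (z * u l) * (z * u l) = spec2 (z * u l) ∧ conj (spec2 (z * u l)) = spec2 (z * u l) ∧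
      spec2 (z * u l) * spec2 (z * u l) = spec2 (z * u l) := by
  have h : (z * u l) ^ 2 = 1 := by rw [mul_pow, hz, H.2.2.1 l, one_mul]
  have hr : conj (z * u l) = z * u l := by
    rcases sq_eq_one_iff.1 h with e | e <;> rw [e] <;> simp
  refine ⟨?_, ?_, ?_⟩
  · simp only [spec2]; linear_combination h / 2
  · simp only [spec2, map_div₀, map_add, map_one, map_ofNat, hr]
  · simp only [spec2]; linear_combination h / 4

lemma overlap2 (H : DiagSym B a 2 u π c) {z : ℂ} (hz : z ^ 2 = 1) (b d : Fin 7) (i j : Fin 6) :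
    ip (fun l => spec2 (z * u l) * B b i l) (B d j) =
      ∑ l, spec2 (z * u l) * (conj (B b i l) * B d j l) := by
  refine Finset.sum_congr rfl fun l _ => ?_
  rw [map_mul, (spec2_facts H hz l).2.1, mul_assoc]

theorem no_diag_two (H : DiagSym B a 2 u π c) : False := by
  classical
  obtain ⟨b, hb⟩ := exists_ne a
  have h1 : (1 : ℂ) ^ 2 = 1 := one_pow 2
  have hm : (-1 : ℂ) ^ 2 = 1 := by norm_num
  have h22 : ∀ d, d ≠ a → ∀ j, π d (π d j) = j := fun d hd j => by
    have := Equiv.congr_fun (H.2.2.2.2.2.2 d hd) j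
    simpa [pow_succ, Equiv.Perm.mul_apply] using this
  have hsum : ∀ z : ℂ, ∑ l, spec2 (z * u l) = 3 := fun z => by
    simp only [spec2, ← Finset.sum_div, Finset.sum_add_distrib, ← Finset.mul_sum, H.2.2.2.1]
    simp; norm_num
  have nrm : ∀ z : ℂ, z ^ 2 = 1 → ∑ l, Complex.normSq (spec2 (z * u l) * B b 0 l) = 1 / 2 := by
    intro z hz
    apply Complex.ofReal_injective
    have h6 : ∀ l, (Complex.normSq (spec2 (z * u l) * B b 0 l) : ℂ) =
        spec2 (z * u l) * (1 / 6) := by
      intro l
      obtain ⟨-, hcj, hid⟩ := spec2_facts H hz l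
      rw [Complex.normSq_mul, H.flat hb]
      push_cast
      rw [← Complex.mul_conj, hcj, hid]
    rw [Complex.ofReal_sum]
    simp only [h6, ← Finset.sum_mul, hsum]
    norm_num
  have total : ∀ z : ℂ, z ^ 2 = 1 → ∀ d, ∑ j, X2 B u b z d j = 1 / 2 := fun z hz d => by
    rw [← nrm z hz]; exact (H.1.1 d).parseval_normSq _
  have inv : ∀ z : ℂ, z ^ 2 = 1 → ∀ d, d ≠ a → ∀ j, X2 B u b z d (π d j) = X2 B u b z d j := by
    intro z hz d hd j
    have e : z * (c d j * ip (fun l => spec2 (z * u l) * B b 0 l) (B d (π d j))) =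
        ip (fun l => spec2 (z * u l) * B b 0 l) (B d j) := by
      rw [← H.ip_shift hd, Finset.mul_sum, overlap2 H hz]
      refine Finset.sum_congr rfl fun l _ => ?_
      obtain ⟨ht, hcj, -⟩ := spec2_facts H hz l
      rw [map_mul, hcj]
      linear_combination (conj (B b 0 l) * B d j l) * ht
    have := congrArg Complex.normSq e
    have nz : Complex.normSq z = 1 := by
      rcases sq_eq_one_iff.1 hz with e | e <;> rw [e] <;> simp
    rwa [Complex.normSq_mul, Complex.normSq_mul, nz, H.normSq_c (by norm_num) hd, one_mul,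
      one_mul] at this
  have self_ : ∑ j, X2 B u b 1 b j ^ 2 = 1 / 8 := by
    have e : X2 B u b 1 b 0 = 1 / 4 := by
      have e1 : ip (fun l => spec2 (1 * u l) * B b 0 l) (B b 0) = 1 / 2 := by
        rw [overlap2 H h1]
        simp only [← Complex.normSq_eq_conj_mul_self, H.flat hb, ← Finset.sum_mul, hsum]
        norm_num
      rw [X2, e1]; norm_num [Complex.normSq_div, Complex.normSq_ofNat]
    obtain ⟨k, l, -, -, -, -, -, -, hs⟩ := orbit_sum_two (h22 b hb) (H.2.2.2.2.2.1 b hb) 0
    have ht := total 1 h1 b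
    rw [hs _ (inv 1 h1 b hb), e] at ht
    have nk : 0 ≤ X2 B u b 1 b k := Complex.normSq_nonneg _
    have nl : 0 ≤ X2 B u b 1 b l := Complex.normSq_nonneg _
    have ek : X2 B u b 1 b k = 0 := by linarith
    have el : X2 B u b 1 b l = 0 := by linarith
    rw [hs _ (fun m => by rw [inv 1 h1 b hb m]), e, ek, el]; norm_num
  have std_ : ∑ j, X2 B u b 1 a j ^ 2 = 1 / 12 := by
    apply Complex.ofReal_injective
    have h6 : ∀ j, ((X2 B u b 1 a j ^ 2 : ℝ) : ℂ) = spec2 (1 * u j) * (1 / 36) := by
      intro j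
      obtain ⟨-, hcj, hid⟩ := spec2_facts H h1 j
      have e : ip (fun l => spec2 (1 * u l) * B b 0 l) (B a j) =
          spec2 (1 * u j) * conj (B b 0 j) := by
        rw [← ip_conj, show B a j = fun m => if m = j then (1 : ℂ) else 0 from funext (H.2.1 j),
          ip_std, map_mul, hcj]
      rw [X2, e, Complex.normSq_mul, Complex.normSq_conj, H.flat hb]
      push_cast
      rw [← Complex.mul_conj, hcj, hid]
      linear_combination (1 / 36 : ℂ) * hid
    rw [Complex.ofReal_sum]
    simp only [h6, ← Finset.sum_mul, hsum]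
    norm_num
  have other : ∀ d, d ≠ a → d ≠ b → ∑ j, X2 B u b 1 d j ^ 2 ≤ 1 / 18 := by
    intro d hd hdb
    obtain ⟨k, l, k1, k2, l1, l2, l3, l4, hs⟩ := orbit_sum_two (h22 d hd) (H.2.2.2.2.2.1 d hd) 0
    have gj : ∀ j, Complex.normSq (ip (B b 0) (B d j)) = 1 / 6 := fun j =>
      H.1.2 b d hdb.symm _ _
    have pair : ∀ j, X2 B u b 1 d j + X2 B u b (-1) d j = 1 / 6 := by
      intro j
      set g0 := ip (B b 0) (B d j) with hg0
      set g1 := ∑ l, conj (B b 0 l) * (u l * B d j l) with hg1
      have n1 : Complex.normSq g1 = 1 / 6 := by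
        rw [hg1, H.ip_shift hd, Complex.normSq_mul, H.normSq_c (by norm_num) hd, one_mul, gj]
      have e : ∀ z : ℂ, z ^ 2 = 1 →
          ip (fun l => spec2 (z * u l) * B b 0 l) (B d j) = (g0 + z * g1) / 2 := by
        intro z hz
        rw [overlap2 H hz, hg0, hg1, ip, Finset.mul_sum, ← Finset.sum_add_distrib, Finset.sum_div]
        exact Finset.sum_congr rfl fun l _ => by simp only [spec2]; ring
      rw [X2, X2, e 1 h1, e (-1) hm, one_mul, neg_one_mul, ← sub_eq_add_neg, Complex.normSq_div,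
        Complex.normSq_div, Complex.normSq_add, Complex.normSq_sub, Complex.normSq_ofNat, n1, gj]
      ring
    -- the three orbit representatives restricted to a class form orthogonal flat triples
    have orth : ∀ z : ℂ, z ^ 2 = 1 → ∀ i j : Fin 6, j ≠ i → j ≠ π d i →
        ∑ m, spec2 (z * u m) * (conj (B d i m) * B d j m) = 0 := by
      intro z hz i j hji hjπ
      have hπ : π d j ≠ i := fun h => hjπ (by rw [← h, h22 d hd])
      have e1 : ∑ m, conj (B d i m) * (u m * B d j m) = 0 := by
        rw [H.ip_shift hd, H.1.1 d i (π d j), if_neg (Ne.symm hπ), mul_zero]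
      have e0 : ∑ m, conj (B d i m) * B d j m = 0 := (H.1.1 d i j).trans (if_neg (Ne.symm hji))
      calc ∑ m, spec2 (z * u m) * (conj (B d i m) * B d j m)
          = (∑ m, conj (B d i m) * B d j m) / 2 +
            z / 2 * ∑ m, conj (B d i m) * (u m * B d j m) := by
            rw [Finset.mul_sum, Finset.sum_div, ← Finset.sum_add_distrib]
            exact Finset.sum_congr rfl fun m _ => by simp only [spec2]; ring
        _ = 0 := by rw [e0, e1]; ring
    have tri : ∀ z : ℂ, z ^ 2 = 1 →
        HeronOK (X2 B u b z d 0) (X2 B u b z d k) (X2 B u b z d l) := by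
      intro z hz
      let L : Finset (Fin 6) := Finset.univ.filter fun m => z * u m = 1
      have hind : ∀ m, spec2 (z * u m) = if z * u m = 1 then 1 else 0 := by
        intro m
        have h : (z * u m) ^ 2 = 1 := by rw [mul_pow, hz, H.2.2.1 m, one_mul]
        rcases sq_eq_one_iff.1 h with e | e <;> rw [e] <;> norm_num [spec2]
      have hL : L.card = 3 := by
        have := hsum z
        simp only [hind, Finset.sum_boole] at this
        exact_mod_cast this
      obtain ⟨x, y, v, hxy, hxv, hyv, hLe⟩ := Finset.card_eq_three.1 hL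
      have sum3 : ∀ F : Fin 6 → ℂ, ∑ m, spec2 (z * u m) * F m =
          ∑ i : Fin 3, F (![x, y, v] i) := by
        intro F
        simp only [hind, ite_mul, one_mul, zero_mul, ← Finset.sum_filter]
        rw [show Finset.univ.filter (fun m => z * u m = 1) = {x, y, v} from hLe,
          Fin.sum_univ_three, Finset.sum_insert (by simp [hxy, hxv]), Finset.sum_pair hyv]
        simp [add_assoc]
      obtain ⟨w, s, t, hw, hs1, ht1, a0, a1, a2, b0, b1, b2⟩ :=
        orth_triple (r := 1 / 6) (by norm_num) (q0 := fun i => B d 0 (![x, y, v] i))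
          (q1 := fun i => B d k (![x, y, v] i)) (q2 := fun i => B d l (![x, y, v] i))
          (fun i => H.flat hd _ _) (fun i => H.flat hd _ _) (fun i => H.flat hd _ _)
          ((sum3 _).symm.trans (orth z hz 0 k k1 k2)) ((sum3 _).symm.trans (orth z hz 0 l l1 l2))
          ((sum3 _).symm.trans (orth z hz k l l3 l4))
      simp only [Matrix.cons_val_zero, Matrix.cons_val_one, Matrix.cons_val_two, Matrix.tail_cons,
        Matrix.head_cons] at a0 a1 a2 b0 b1 b2
      have fl : ∀ m, Complex.normSq (conj (B b 0 m) * B d 0 m) = 1 / 36 := fun m => by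
        rw [Complex.normSq_mul, Complex.normSq_conj, H.flat hb, H.flat hd]; norm_num
      have hF := (flat_triple hw (fl x) (fl y) (fl v)).1
      have e : ∀ j, X2 B u b z d j =
          Complex.normSq (∑ i : Fin 3, conj (B b 0 (![x, y, v] i)) * B d j (![x, y, v] i)) := by
        intro j; rw [X2, overlap2 H hz, sum3]
      simp only [e, Fin.sum_univ_three, Matrix.cons_val_zero, Matrix.cons_val_one,
        Matrix.cons_val_two, Matrix.tail_cons, Matrix.head_cons, a0, a1, a2, b0, b1, b2]
      convert hF using 1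
      · rw [← one_mul (Complex.normSq (_ + w * _ + _)), ← hs1, ← Complex.normSq_mul]; congr 1; ring
      · rw [← one_mul (Complex.normSq (_ + w ^ 2 * _ + _)), ← ht1, ← Complex.normSq_mul]
        congr 1; ring
    have t0 := total 1 h1 d
    rw [hs _ (inv 1 h1 d hd)] at t0
    have hc := cap (show (0 : ℝ) < 1 / 36 by norm_num) (tri 1 h1) (tri (-1) hm) (by linarith)
      (by linarith [pair 0]) (by linarith [pair k]) (by linarith [pair l])
    rw [hs _ (fun m => by rw [inv 1 h1 d hd m])]
    linarith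
  have tot : ∑ d, ∑ j, X2 B u b 1 d j ^ 2 = 1 / 2 := by
    simp only [X2, moment_vec H.1, nrm 1 h1]; norm_num
  have hle : ∀ d, ∑ j, X2 B u b 1 d j ^ 2 ≤ 1 / 18 + (if d = a then 1 / 12 - 1 / 18 else 0) +
      (if d = b then 1 / 8 - 1 / 18 else 0) := by
    intro d
    by_cases hda : d = a
    · subst hda; rw [if_pos rfl, if_neg (Ne.symm hb), std_]; norm_num
    by_cases hdb : d = b
    · subst hdb; rw [if_neg hda, if_pos rfl, self_]; norm_num
    rw [if_neg hda, if_neg hdb]; linarith [other d hda hdb]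
  have := Finset.sum_le_sum (s := Finset.univ) fun d _ => hle d
  rw [tot] at this
  simp only [Finset.sum_add_distrib, Finset.sum_ite_eq', Finset.mem_univ, if_true,
    Finset.sum_const, Finset.card_univ, Fintype.card_fin, nsmul_eq_mul] at this
  norm_num at this

end Vale.Agent.P355
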