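import Mathlib
import Vale.Agent.P355.DiagTwo
import Vale.Agent.P355.DiagThree

/-!
The stabiliser of a complete set of seven mutually unbiased bases, and symmetries of prime order
at least five of three bases.
-/

namespace Vale.Agent.P355

open scoped ComplexConjugate BigOperators
open Matrix

/-- A matrix is a scalar multiple of the identity. -/
def IsScalarMat (U : Matrix (Fin 6) (Fin 6) ℂ) : Prop :=
  ∃ t : ℂ, U = t • (1 : Matrix (Fin 6) (Fin 6) ℂ)

variable {U : Matrix (Fin 6) (Fin 6) ℂ}

lemma Acts.perm_pow {A : Fin 6 → Fin 6 → ℂ} {π : Equiv.Perm (Fin 6)} {c : Fin 6 → ℂ}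
    (h : Acts U A π c) (hU : U ∈ Matrix.unitaryGroup (Fin 6) ℂ) (hA : IsONB A) {p : ℕ}
    (hs : IsScalarMat (U ^ p)) : π ^ p = 1 := by
  obtain ⟨t, ht⟩ := hs
  obtain ⟨d, hd⟩ := h.pow p
  refine Equiv.ext fun i => ?_
  rw [Equiv.Perm.one_apply]
  by_contra hne
  have hUp : U ^ p ∈ Matrix.unitaryGroup (Fin 6) ℂ := pow_mem hU p
  have e := hd i
  rw [ht, smul_mulVec, one_mulVec] at e
  have e2 := congrArg (ip (A ((π ^ p) i))) e
  rw [ip_smul_right, ip_smul_right, hA, hA, if_neg hne, if_pos rfl, mul_zero, mul_one] at e2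
  have := hd.normSq_coeff hUp hA i
  rw [← e2, map_zero] at this
  norm_num at this

lemma fixed_card_mod {π : Equiv.Perm (Fin 6)} {p : ℕ} (hp : p.Prime) (h : π ^ p = 1) :
    (Finset.univ.filter fun i => π i = i).card ≡ 6 [MOD p] := by
  haveI := Fact.mk hp
  have e := Equiv.Perm.card_compl_support_modEq (n := 1) (σ := π) (by rwa [pow_one])
  rw [Fintype.card_fin] at e
  convert e using 3
  ext i; simp

lemma fixed_card_six {π : Equiv.Perm (Fin 6)}
    (h : (Finset.univ.filter fun i => π i = i).card = 6) : ∀ i, π i = i := fun i => by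
  have := Finset.eq_univ_of_card _ (h.trans (Fintype.card_fin 6).symm)
  have hi := Finset.mem_univ i
  rw [← this] at hi
  exact (Finset.mem_filter.1 hi).2

lemma five_orbit {π : Equiv.Perm (Fin 6)} (h5 : π ^ 5 = 1)
    (h1 : (Finset.univ.filter fun i => π i = i).card = 1) {i : Fin 6} (hi : π i ≠ i) (j : Fin 6)
    (hj : π j ≠ j) : ∃ k : ℕ, (π ^ k) i = j := by
  set S := (Finset.univ.filter fun k => ¬π k = k) with hS
  have hScard : S.card = 5 := by
    have := Finset.card_filter_add_card_filter_not (s := (Finset.univ : Finset (Fin 6)))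
      (fun k => π k = k)
    simp only [Finset.card_univ, Fintype.card_fin] at this
    rw [hS]
    omega
  have hmin : Function.minimalPeriod π i = 5 := by
    haveI := Fact.mk (show Nat.Prime 5 by norm_num)
    refine Function.minimalPeriod_eq_prime ?_ hi
    change (⇑π)^[5] i = i
    rw [← Equiv.Perm.coe_pow, h5, Equiv.Perm.one_apply]
  have hsub : (Finset.range 5).image (fun k => (π ^ k) i) ⊆ S := by
    intro x hx
    obtain ⟨k, -, rfl⟩ := Finset.mem_image.1 hx
    rw [hS, Finset.mem_filter]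
    refine ⟨Finset.mem_univ _, fun h => hi ((π ^ k).injective ?_)⟩
    rw [← Equiv.Perm.mul_apply, ← pow_succ, pow_succ', Equiv.Perm.mul_apply]; exact h
  have hinj : Set.InjOn (fun k => (π ^ k) i) (Finset.range 5 : Finset ℕ) := by
    intro k hk m hm hkm
    simp only [Finset.coe_range, Set.mem_Iio] at hk hm
    simp only [Equiv.Perm.coe_pow] at hkm
    exact Function.iterate_injOn_Iio_minimalPeriod (by rw [hmin]; exact hk)
      (by rw [hmin]; exact hm) hkm
  have heq := Finset.eq_of_subset_of_card_le hsub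
    (by rw [Finset.card_image_of_injOn hinj, Finset.card_range, hScard])
  have hjS : j ∈ S := by rw [hS, Finset.mem_filter]; exact ⟨Finset.mem_univ _, hj⟩
  rw [← heq] at hjS
  obtain ⟨k, -, hk⟩ := Finset.mem_image.1 hjS
  exact ⟨k, hk⟩

/-- An eigenvector is determined by its coordinates at the fixed and at one moved vector. -/
lemma eigen_zero {A : Fin 6 → Fin 6 → ℂ} {π : Equiv.Perm (Fin 6)} {c : Fin 6 → ℂ}
    (h : Acts U A π c) (hU : U ∈ Matrix.unitaryGroup (Fin 6) ℂ) (hA : IsONB A)
    (h5 : π ^ 5 = 1) (h1 : (Finset.univ.filter fun i => π i = i).card = 1) {f i : Fin 6}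
    (hf : π f = f) (hi : π i ≠ i) {lam : ℂ} (hlam : lam ≠ 0) {x : Fin 6 → ℂ}
    (hx : U *ᵥ x = lam • x) (z1 : ip (A f) x = 0) (z2 : ip (A i) x = 0) : x = 0 := by
  have step : ∀ k, ip (A k) x = 0 → ip (A (π k)) x = 0 := by
    intro k hk
    have e := ip_mulVec hU (A k) x
    rw [h k, hx, ip_smul_left, ip_smul_right, hk] at e
    rcases mul_eq_zero.1 e with e | e
    · exfalso
      have := h.normSq_coeff hU hA k
      rw [(map_eq_zero _).1 e, map_zero] at this
      norm_num at this
    · exact (mul_eq_zero.1 e).resolve_left hlam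
  have all : ∀ k, ip (A k) x = 0 := by
    intro k
    by_cases hk : π k = k
    · obtain ⟨a, ha⟩ := Finset.card_eq_one.1 h1
      have e1 : k ∈ ({a} : Finset (Fin 6)) := by rw [← ha]; simp [hk]
      have e2 : f ∈ ({a} : Finset (Fin 6)) := by rw [← ha]; simp [hf]
      rw [Finset.mem_singleton] at e1 e2
      rw [e1, ← e2]; exact z1
    · obtain ⟨n, rfl⟩ := five_orbit h5 h1 hi k hk
      clear hk
      induction n with
      | zero => exact z2
      | succ n ih => rw [pow_succ', Equiv.Perm.mul_apply]; exact step _ ih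
  funext l
  have : ∀ m, ∑ k, A k m * ip (A k) x = x m := by
    intro m
    simp only [ip, Finset.mul_sum, ← mul_assoc]
    rw [Finset.sum_comm]
    simp only [← Finset.sum_mul, hA.complete, ite_mul, one_mul, zero_mul, Finset.sum_ite_eq,
      Finset.mem_univ, if_true]
  rw [← this l]; simp [all]

/-- Three pairwise unbiased bases have no common symmetry of prime order at least five. -/
theorem no_large_prime {B : Fin 3 → Fin 6 → Fin 6 → ℂ} (hB : IsMUBSet B)
    (hU : U ∈ Matrix.unitaryGroup (Fin 6) ℂ) (hst : ∀ b, Stabilises U (B b)) {p : ℕ}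
    (hp : p.Prime) (h5 : 5 ≤ p) (hs : IsScalarMat (U ^ p)) : IsScalarMat U := by
  by_contra hns
  choose π c hact using fun b => hst b
  have hπ : ∀ b, π b ^ p = 1 := fun b => Acts.perm_pow (hact b) hU (hB.1 b) hs
  set N : Fin 3 → ℕ := fun b => (Finset.univ.filter fun i => π b i = i).card with hN
  have hle : ∀ b, N b ≤ 6 := fun b => (Finset.card_le_univ _).trans (by simp)
  have hex : ∀ b, ∃ i, π b i = i := by
    intro b
    by_contra h
    push Not at h
    have h0 : N b = 0 := by simp [hN, h]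
    have := fixed_card_mod hp (hπ b)
    simp only [hN] at h0
    rw [h0] at this
    have hd := Nat.le_of_dvd (by norm_num) ((Nat.modEq_zero_iff_dvd.1 this.symm))
    interval_cases p <;> simp_all [Nat.ModEq] <;> norm_num at *
  have hsix : ∀ b, N b ≠ 6 := by
    intro b h
    obtain ⟨d, hd⟩ := exists_ne b
    obtain ⟨j, hj⟩ := hex d
    exact hns ⟨_, Acts.scalar_of_two (hact b) (hact d) hU (hB.1 b) (hB.2 b d hd.symm)
      (fixed_card_six h) hj⟩
  have hpf : p = 5 ∧ ∀ b, N b = 1 := by
    have hp5 : p = 5 := by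
      have h1 := fixed_card_mod hp (hπ 0)
      have h6 := hle 0
      have hne := hsix 0
      obtain ⟨i, hi⟩ := hex 0
      have hpos : 0 < N 0 := Finset.card_pos.2 ⟨i, by simp [hi]⟩
      simp only [hN] at h6 hne hpos
      have := Nat.le_of_dvd (by omega) ((Nat.modEq_iff_dvd' h6).1 h1)
      omega
    subst hp5
    refine ⟨rfl, fun b => ?_⟩
    have h1 := fixed_card_mod hp (hπ b)
    have h6 := hle b
    have hne := hsix b
    obtain ⟨i, hi⟩ := hex b
    have hpos : 0 < N b := Finset.card_pos.2 ⟨i, by simp [hi]⟩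
    simp only [hN] at h6 hne hpos ⊢
    simp only [Nat.ModEq] at h1
    omega
  obtain ⟨rfl, hone⟩ := hpf
  obtain ⟨f0, hf0⟩ := hex 0
  obtain ⟨f1, hf1⟩ := hex 1
  obtain ⟨f2, hf2⟩ := hex 2
  obtain ⟨i, hi⟩ : ∃ i, π 0 i ≠ i := by
    by_contra h
    push Not at h
    exact hsix 0 (by simp [hN, h])
  set lam := c 0 f0 with hlam
  have l1 : c 1 f1 = lam :=
    (Acts.fixed_eq (hact 0) (hact 1) hU (hB.1 0) (hB.2 0 1 (by decide)) hf0 hf1).symm
  have l2 : c 2 f2 = lam :=
    (Acts.fixed_eq (hact 0) (hact 2) hU (hB.1 0) (hB.2 0 2 (by decide)) hf0 hf2).symm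
  have hlne : lam ≠ 0 := fun h => by
    have := Acts.normSq_coeff (hact 0) hU (hB.1 0) f0
    rw [← hlam, h, map_zero] at this
    norm_num at this
  set e := B 0 f0 with he
  set f := B 1 f1 with hf
  set g := B 2 f2 with hg
  have ee : U *ᵥ e = lam • e := by rw [he, hact 0 f0, hf0]
  have ef : U *ᵥ f = lam • f := by rw [hf, hact 1 f1, hf1, l1]
  have eg : U *ᵥ g = lam • g := by rw [hg, hact 2 f2, hf2, l2]
  set u2 := ip (B 0 i) f with hu2
  have hu2ne : u2 ≠ 0 := fun h => by
    have := hB.2 0 1 (by decide) i f1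
    rw [← hf, ← hu2, h, map_zero] at this
    norm_num at this
  set β := ip (B 0 i) g / u2 with hβ
  set α := ip e g - β * ip e f with hα
  have hz : g + (-β) • f + (-α) • e = 0 := by
    refine eigen_zero (hact 0) hU (hB.1 0) (hπ 0) (hone 0) hf0 hi hlne ?_ ?_ ?_
    · rw [mulVec_add, mulVec_add, mulVec_smul, mulVec_smul, ee, ef, eg, smul_add, smul_add,
        smul_comm (-β), smul_comm (-α)]
    · have hee : ip e e = 1 := by rw [he, hB.1 0 f0 f0, if_pos rfl]
      have add : ∀ x y : Fin 6 → ℂ, ip e (x + y) = ip e x + ip e y := fun x y => by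
        simp [ip, mul_add, Finset.sum_add_distrib]
      rw [← he, add, add, ip_smul_right, ip_smul_right, hee, hα]; ring
    · have hie : ip (B 0 i) e = 0 := by
        rw [he, hB.1 0 i f0, if_neg (fun h => hi (by rw [h, hf0]))]
      have add : ∀ x y : Fin 6 → ℂ, ip (B 0 i) (x + y) = ip (B 0 i) x + ip (B 0 i) y :=
        fun x y => by simp [ip, mul_add, Finset.sum_add_distrib]
      rw [add, add, ip_smul_right, ip_smul_right, hie, ← hu2, hβ]
      field_simp
      ring
  have pr : ∀ x : Fin 6 → ℂ, ip x g = β * ip x f + α * ip x e := by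
    intro x
    have h := congrArg (ip x) hz
    have add : ∀ y z : Fin 6 → ℂ, ip x (y + z) = ip x y + ip x z := fun y z => by
      simp [ip, mul_add, Finset.sum_add_distrib]
    rw [add, add, ip_smul_right, ip_smul_right, show ip x (0 : Fin 6 → ℂ) = 0 by simp [ip]] at h
    linear_combination h
  have hk : ∀ {a b : Fin 3} (i j : Fin 6), a ≠ b → ‖ip (B a i) (B b j)‖ < 1 / 2 := by
    intro a b i j hab
    have h := hB.2 a b hab i j
    rw [Complex.normSq_eq_norm_sq] at h
    nlinarith [norm_nonneg (ip (B a i) (B b j))]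
  have hge : ‖ip g e‖ < 1 / 2 := hk _ _ (by decide)
  have hgf : ‖ip g f‖ < 1 / 2 := hk _ _ (by decide)
  have hef : ‖ip e f‖ < 1 / 2 := hk _ _ (by decide)
  have hfe : ‖ip f e‖ < 1 / 2 := hk _ _ (by decide)
  have heg : ‖ip e g‖ < 1 / 2 := hk _ _ (by decide)
  have hfg : ‖ip f g‖ < 1 / 2 := hk _ _ (by decide)
  have q1 : (1 : ℝ) ≤ ‖β‖ * ‖ip g f‖ + ‖α‖ * ‖ip g e‖ := by
    have h := pr g
    rw [hg, hB.1 2 f2 f2, if_pos rfl, ← hg] at h
    have := norm_add_le (β * ip g f) (α * ip g e)
    rwa [← h, norm_one, norm_mul, norm_mul] at this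
  have q2 : ‖α‖ ≤ ‖ip e g‖ + ‖β‖ * ‖ip e f‖ := by
    have h := pr e
    have : α = ip e g - β * ip e f := hα
    rw [this]
    exact (norm_sub_le _ _).trans (by rw [norm_mul])
  have q3 : ‖β‖ ≤ ‖ip f g‖ + ‖α‖ * ‖ip f e‖ := by
    have h := pr f
    rw [show ip f f = 1 from (hB.1 1 f1 f1).trans (if_pos rfl)] at h
    rw [show β = ip f g - α * ip f e by linear_combination -h]
    exact (norm_sub_le _ _).trans (by rw [norm_mul])
  have g16 : ∀ {a b : Fin 3} (i j : Fin 6), a ≠ b → ‖ip (B a i) (B b j)‖ ^ 2 = 1 / 6 := by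
    intro a b i j hab
    rw [← Complex.normSq_eq_norm_sq]; exact hB.2 a b hab i j
  set r := Real.sqrt (1 / 6) with hr
  have eqr : ∀ {a b : Fin 3} (i j : Fin 6), a ≠ b → ‖ip (B a i) (B b j)‖ = r := by
    intro a b i j hab
    rw [hr, ← g16 i j hab, Real.sqrt_sq (norm_nonneg _)]
  rw [eqr _ _ (by decide), eqr _ _ (by decide)] at q1 q2 q3
  have hr2 : r ^ 2 = 1 / 6 := Real.sq_sqrt (by norm_num)
  have hr0 : 0 ≤ r := Real.sqrt_nonneg _
  nlinarith [norm_nonneg α, norm_nonneg β]

/-- The core: a unitary of prime order stabilising seven unbiased bases is scalar. -/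
theorem prime_case {B : Fin 7 → Fin 6 → Fin 6 → ℂ} (hB : IsMUBSet B)
    (hU : U ∈ Matrix.unitaryGroup (Fin 6) ℂ) (hst : ∀ b, Stabilises U (B b)) {p : ℕ}
    (hp : p.Prime) (hs : IsScalarMat (U ^ p)) : IsScalarMat U := by
  classical
  by_cases h5 : 5 ≤ p
  · refine no_large_prime (B := fun b : Fin 3 => B (Fin.castLE (by norm_num) b)) ?_ hU
      (fun b => hst _) hp h5 hs
    exact ⟨fun b => hB.1 _, fun a b hab => hB.2 _ _ fun h => hab (Fin.castLE_injective _ h)⟩
  by_contra hns
  choose π c hact using fun b => hst b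
  have hπ : ∀ b, π b ^ p = 1 := fun b => Acts.perm_pow (hact b) hU (hB.1 b) hs
  have hp23 : p = 2 ∨ p = 3 := by
    have := hp.two_le
    have h4 : p ≠ 4 := fun h => by rw [h] at hp; norm_num at hp
    omega
  set N : Fin 7 → ℕ := fun b => (Finset.univ.filter fun i => π b i = i).card with hN
  have hUU : Uᴴ * U = 1 := Matrix.mem_unitaryGroup_iff'.1 hU
  have hM : ∑ b, (N b : ℝ) = Complex.normSq U.trace + 6 := by
    have h := moment hB U
    have e : ∀ b i, Complex.normSq (ip (B b i) (U *ᵥ B b i)) =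
        if π b i = i then 1 else 0 := by
      intro b i
      rw [hact b i, ip_smul_right, hB.1 b i (π b i), Complex.normSq_mul,
        Acts.normSq_coeff (hact b) hU (hB.1 b), one_mul]
      by_cases hi : π b i = i
      · simp [hi]
      · simp [hi, Ne.symm hi]
    have e6 : ∑ l, ∑ m, Complex.normSq (U l m) = 6 := by
      rw [Finset.sum_comm]
      have : ∀ m, ∑ l, Complex.normSq (U l m) = 1 := fun m => by
        apply Complex.ofReal_injective
        have h := congrFun (congrFun hUU m) m
        rw [mul_apply, one_apply_eq] at h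
        rw [Complex.ofReal_sum, Complex.ofReal_one, ← h]
        exact Finset.sum_congr rfl fun l _ => by
          rw [conjTranspose_apply, RCLike.star_def, ← Complex.normSq_eq_conj_mul_self]
      simp [this]
    simp only [e, Finset.sum_boole, e6] at h
    simpa [hN] using h
  by_cases htwo : ∃ a b, a ≠ b ∧ (∃ i, π a i = i) ∧ ∃ j, π b j = j
  · obtain ⟨a, b, hab, ⟨i, hi⟩, j, hj⟩ := htwo
    set lam := c a i with hlam
    have hb' : c b j = lam := (Acts.fixed_eq (hact a) (hact b) hU (hB.1 a) (hB.2 a b hab) hi hj).symm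
    have hall : ∀ d k, π d k = k → c d k = lam := by
      intro d k hk
      by_cases hda : d = a
      · subst hda
        rw [← hb']
        exact Acts.fixed_eq (hact d) (hact b) hU (hB.1 d) (hB.2 d b hab) hk hj
      · exact (Acts.fixed_eq (hact a) (hact d) hU (hB.1 a) (hB.2 a d (Ne.symm hda)) hi hk).symm
    have htr : ∀ d, U.trace = (N d : ℂ) * lam := by
      intro d
      rw [Acts.trace_eq (hact d) (hB.1 d), hN, ← Finset.sum_filter]
      rw [Finset.sum_congr rfl (fun k hk => hall d k (Finset.mem_filter.1 hk).2)]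
      simp
    have hl1 : Complex.normSq lam = 1 := Acts.normSq_coeff (hact a) hU (hB.1 a) i
    have hne : lam ≠ 0 := fun h => by rw [h, map_zero] at hl1; norm_num at hl1
    have hconst : ∀ d, N d = N a := fun d => by
      have := (htr d).symm.trans (htr a)
      exact_mod_cast mul_right_cancel₀ hne this
    simp only [hconst, Finset.sum_const, Finset.card_univ, Fintype.card_fin, nsmul_eq_mul] at hM
    rw [htr a, Complex.normSq_mul, hl1, mul_one, Complex.normSq_natCast] at hM
    have hq : ((N a : ℝ) - 1) * ((N a : ℝ) - 6) = 0 := by push_cast at hM; nlinarith [hM]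
    rcases mul_eq_zero.1 hq with h | h
    · have h1 : N a = 1 := by
        have : (N a : ℝ) = 1 := by linarith
        exact_mod_cast this
      have hm := fixed_card_mod hp (hπ a)
      simp only [hN] at h1
      rw [h1] at hm
      rcases hp23 with rfl | rfl <;> simp [Nat.ModEq] at hm
    · have h6 : N a = 6 := by
        have : (N a : ℝ) = 6 := by linarith
        exact_mod_cast this
      exact hns ⟨_, Acts.scalar_of_two (hact a) (hact b) hU (hB.1 a) (hB.2 a b hab)
        (fixed_card_six h6) hj⟩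
  push Not at htwo
  obtain ⟨a, i, hai⟩ : ∃ a i, π a i = i := by
    by_contra h
    push Not at h
    have : ∀ b, N b = 0 := fun b => by simp [hN, h b]
    simp only [this, Nat.cast_zero, Finset.sum_const_zero] at hM
    linarith [Complex.normSq_nonneg U.trace]
  have hfree : ∀ d, d ≠ a → ∀ k, π d k ≠ k := fun d hd => htwo a d hd.symm ⟨i, hai⟩
  have hN0 : ∀ d, d ≠ a → N d = 0 := fun d hd => by simp [hN, hfree d hd]
  obtain ⟨d0, hd0⟩ := exists_ne a
  have htr0 : U.trace = 0 := by
    rw [Acts.trace_eq (hact d0) (hB.1 d0)]; simp [hfree d0 hd0]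
  have hNa : N a = 6 := by
    rw [Finset.sum_eq_single a (fun d _ hd => by simp [hN0 d hd]) (by simp), htr0, map_zero,
      zero_add] at hM
    exact_mod_cast hM
  have hid : ∀ k, π a k = k := fixed_card_six hNa
  -- normalise the order and move the basis a to the standard one
  obtain ⟨t, ht⟩ := hs
  obtain ⟨μ, hμ⟩ := IsAlgClosed.exists_pow_nat_eq t hp.pos
  have hcp : ∀ k, c a k ^ p = t := by
    intro k
    have e : ∀ n : ℕ, (U ^ n) *ᵥ B a k = c a k ^ n • B a k := by
      intro n
      induction n with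
      | zero => simp
      | succ n ih => rw [pow_succ, ← mulVec_mulVec, hact a k, hid k, mulVec_smul, ih, smul_smul,
          ← pow_succ']
    have e1 := e p
    rw [ht, smul_mulVec, one_mulVec] at e1
    have e2 := congrArg (ip (B a k)) e1
    rw [ip_smul_right, ip_smul_right, hB.1 a k k, if_pos rfl, mul_one, mul_one] at e2
    exact e2.symm
  have hμ0 : μ ≠ 0 := fun h => by
    rw [h, zero_pow hp.ne_zero] at hμ
    have h1 := Acts.normSq_coeff (hact a) hU (hB.1 a) 0
    have := hcp 0
    rw [← hμ] at this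
    rw [eq_zero_of_pow_eq_zero this, map_zero] at h1
    norm_num at h1
  set u : Fin 6 → ℂ := fun k => c a k / μ with hu
  set B' : Fin 7 → Fin 6 → Fin 6 → ℂ := fun b j l => ip (B a l) (B b j) with hB'
  have hip : ∀ b d j k, ip (B' b j) (B' d k) = ip (B b j) (B d k) := fun b d j k => by
    rw [← (hB.1 a).parseval (B b j) (B d k)]; rfl
  have H : DiagSym B' a p u π (fun d k => c d k / μ) := by
    refine ⟨⟨fun b j k => ?_, fun b d hbd j k => ?_⟩, fun j l => ?_, fun l => ?_, ?_, ?_, hfree,
      fun d _ => hπ d⟩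
    · rw [hip]; exact hB.1 b j k
    · rw [hip]; exact hB.2 b d hbd j k
    · exact hB.1 a l j
    · rw [hu, div_pow, hcp, hμ, div_self]
      rw [← hμ]; exact pow_ne_zero _ hμ0
    · have := Acts.trace_eq (hact a) (hB.1 a)
      simp only [hid, if_true, htr0] at this
      rw [hu, ← Finset.sum_div, ← this, zero_div]
    · intro d hd j l
      have e := ip_mulVec hU (B a l) (B d j)
      rw [hact a l, hid l, hact d j, ip_smul_left, ip_smul_right] at e
      have h1 : c a l * conj (c a l) = 1 := by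
        rw [Complex.mul_conj, Acts.normSq_coeff (hact a) hU (hB.1 a), Complex.ofReal_one]
      simp only [hu, hB']
      field_simp
      linear_combination (-(c a l)) * e + (c d j * ip (B a l) (B d (π d j))) * h1
  rcases hp23 with rfl | rfl
  · exact no_diag_two H
  · exact no_diag_three H

lemma Stabilises.npow {A : Fin 6 → Fin 6 → ℂ} (h : Stabilises U A) (n : ℕ) :
    Stabilises (U ^ n) A := by
  obtain ⟨π, c, hc⟩ := h
  obtain ⟨d, hd⟩ := Acts.pow (π := π) (c := c) hc n
  exact ⟨π ^ n, d, hd⟩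

/-- The stabiliser of a complete set consists of scalars. -/
theorem stabiliser_scalar {B : Fin 7 → Fin 6 → Fin 6 → ℂ} (hB : IsMUBSet B)
    (hU : U ∈ Matrix.unitaryGroup (Fin 6) ℂ) (hst : ∀ b, Stabilises U (B b)) : IsScalarMat U := by
  classical
  have hfin : ∃ n, 0 < n ∧ IsScalarMat (U ^ n) := by
    refine ⟨Fintype.card (Equiv.Perm (Fin 6)), Fintype.card_pos, ?_⟩
    choose π c hact using fun b => hst b
    obtain ⟨d0, h0⟩ := Acts.pow (hact 0) (Fintype.card (Equiv.Perm (Fin 6)))
    obtain ⟨d1, h1⟩ := Acts.pow (hact 1) (Fintype.card (Equiv.Perm (Fin 6)))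
    rw [pow_card_eq_one] at h0 h1
    exact ⟨_, Acts.scalar_of_two (j := 0) h0 h1 (pow_mem hU _) (hB.1 0) (hB.2 0 1 (by decide))
      (fun i => rfl) rfl⟩
  obtain ⟨hn0, hn⟩ := Nat.find_spec hfin
  set n := Nat.find hfin with hndef
  by_cases h1 : n = 1
  · rw [h1, pow_one] at hn; exact hn
  exfalso
  obtain ⟨p, hp, m, hm⟩ := Nat.exists_prime_and_dvd h1
  have hm0 : 0 < m := Nat.pos_of_ne_zero fun h => by rw [h, mul_zero] at hm; omega
  have hlt : m < n := by
    rw [hm]; exact lt_mul_of_one_lt_left hm0 hp.one_lt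
  have hs : IsScalarMat ((U ^ m) ^ p) := by rw [← pow_mul, mul_comm, ← hm]; exact hn
  exact Nat.find_min hfin hlt ⟨hm0, prime_case hB (pow_mem hU m) (fun b => (hst b).npow m) hp hs⟩

end Vale.Agent.P355
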