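import Mathlib
import Vale.Agent.P355.Core

/-!
A symmetry of a complete set is determined by its permutation of the bases.
-/

namespace Vale.Agent.P355

open scoped ComplexConjugate
open Matrix

/-- A matrix maps every vector of the first basis to a multiple of a vector of the second basis,
bijectively on indices. -/
def MapsBasis (U : Matrix (Fin 6) (Fin 6) ℂ) (A C : Fin 6 → Fin 6 → ℂ) : Prop :=
  ∃ (π : Equiv.Perm (Fin 6)) (c : Fin 6 → ℂ), ∀ i, U.mulVec (A i) = c i • C (π i)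

theorem symmetry_faithful {B : Fin 7 → Fin 6 → Fin 6 → ℂ} (hB : IsMUBSet B)
    {σ : Equiv.Perm (Fin 7)} {U V : Matrix (Fin 6) (Fin 6) ℂ}
    (hU : U ∈ Matrix.unitaryGroup (Fin 6) ℂ) (hV : V ∈ Matrix.unitaryGroup (Fin 6) ℂ)
    (mU : ∀ b, MapsBasis U (B b) (B (σ b))) (mV : ∀ b, MapsBasis V (B b) (B (σ b))) :
    ∃ t : ℂ, U = t • V := by
  have hVV : Vᴴ * V = 1 := Matrix.mem_unitaryGroup_iff'.1 hV
  have hVV' : V * Vᴴ = 1 := Matrix.mem_unitaryGroup_iff.1 hV
  have hst : ∀ b, Stabilises (Vᴴ * U) (B b) := by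
    intro b
    obtain ⟨π, c, hc⟩ := mU b
    obtain ⟨ρ, d, hd⟩ := mV b
    refine ⟨π.trans ρ.symm, fun i => c i / d (ρ.symm (π i)), fun i => ?_⟩
    set k := ρ.symm (π i) with hk
    have hdk : d k ≠ 0 := by
      intro h0
      have e := ip_mulVec hV (B b k) (B b k)
      rw [hd k, h0, zero_smul, hB.1 b k k, if_pos rfl] at e
      simp [ip] at e
    have e1 : B b k = d k • (Vᴴ *ᵥ B (σ b) (π i)) := by
      have h := congrArg (fun v => Vᴴ *ᵥ v) (hd k)
      simp only [mulVec_mulVec, hVV, one_mulVec, mulVec_smul] at h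
      rwa [show ρ k = π i by rw [hk]; exact ρ.apply_symm_apply _] at h
    rw [← mulVec_mulVec, hc i, mulVec_smul]
    simp only [Equiv.trans_apply, ← hk]
    rw [e1, smul_smul, div_mul_cancel₀ _ hdk]
  obtain ⟨t, ht⟩ := stabiliser_scalar (U := Vᴴ * U) hB
    (mul_mem (Unitary.star_mem hV) hU) hst
  refine ⟨t, ?_⟩
  calc U = V * (Vᴴ * U) := by rw [← Matrix.mul_assoc, hVV', Matrix.one_mul]
    _ = t • V := by rw [ht, Matrix.mul_smul, Matrix.mul_one]

end Vale.Agent.P355
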