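import Mathlib

/-!
Weiner's extension theorem: as many pairwise unbiased bases as the dimension extend to one more.

The projection `T` onto the matrices orthogonal to the traceless parts of all bases has a kernel
which is symmetric in the two tensor factors, so all matrices in its image commute; a common
eigenbasis is unbiased to every given basis.
-/

namespace Vale.Agent.P355.Weiner

open scoped ComplexConjugate BigOperators InnerProductSpace Function
open Matrix

variable {d : ℕ}

/-- A unit vector attached to a basis and a position in it. -/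
abbrev Vecs (d : ℕ) : Type := Fin d × Fin d → Fin d → ℂ

/-- The quadratic form of a matrix at a vector. -/
noncomputable def qF (v : Fin d → ℂ) (X : Matrix (Fin d) (Fin d) ℂ) : ℂ :=
  ∑ i, ∑ j, conj (v i) * X i j * v j

/-- The projection onto the span of a vector. -/
noncomputable def proj (v : Fin d → ℂ) : Matrix (Fin d) (Fin d) ℂ :=
  Matrix.of fun i j => v i * conj (v j)

/-- The overlap of two vectors. -/
noncomputable def ov (v w : Fin d → ℂ) : ℂ := ∑ i, conj (v i) * w i

lemma qF_proj (v w : Fin d → ℂ) : qF v (proj w) = ov v w * conj (ov v w) := by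
  simp only [qF, proj, ov, Matrix.of_apply, map_sum, map_mul, Complex.conj_conj,
    Finset.sum_mul_sum]
  exact Finset.sum_congr rfl fun i _ => Finset.sum_congr rfl fun j _ => by ring

lemma qF_add (v : Fin d → ℂ) (X Y : Matrix (Fin d) (Fin d) ℂ) :
    qF v (X + Y) = qF v X + qF v Y := by
  simp [qF, mul_add, add_mul, Finset.sum_add_distrib]

lemma qF_smul (v : Fin d → ℂ) (z : ℂ) (X : Matrix (Fin d) (Fin d) ℂ) :
    qF v (z • X) = z * qF v X := by
  simp only [qF, Matrix.smul_apply, smul_eq_mul, Finset.mul_sum]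
  exact Finset.sum_congr rfl fun i _ => Finset.sum_congr rfl fun j _ => by ring

lemma qF_sum {ι : Type} (s : Finset ι) (v : Fin d → ℂ) (X : ι → Matrix (Fin d) (Fin d) ℂ) :
    qF v (∑ k ∈ s, X k) = ∑ k ∈ s, qF v (X k) := by
  classical
  induction s using Finset.induction with
  | empty => simp [qF]
  | insert k s hk ih => rw [Finset.sum_insert hk, Finset.sum_insert hk, qF_add, ih]

lemma qF_sub (v : Fin d → ℂ) (X Y : Matrix (Fin d) (Fin d) ℂ) :
    qF v (X - Y) = qF v X - qF v Y := by
  simp [qF, mul_sub, sub_mul, Finset.sum_sub_distrib]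

lemma qF_one (v : Fin d → ℂ) : qF v 1 = ov v v := by
  simp [qF, ov, Matrix.one_apply]

lemma qF_conjTranspose (v : Fin d → ℂ) (X : Matrix (Fin d) (Fin d) ℂ) :
    qF v Xᴴ = conj (qF v X) := by
  simp only [qF, Matrix.conjTranspose_apply, map_sum, map_mul, Complex.conj_conj,
    RCLike.star_def]
  rw [Finset.sum_comm]
  exact Finset.sum_congr rfl fun i _ => Finset.sum_congr rfl fun j _ => by ring

/-- Data of `d` pairwise unbiased bases in dimension `d`. -/
structure Full (v : Vecs d) : Prop where
  pos : 0 < d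
  self : ∀ p, ov (v p) (v p) = 1
  orth : ∀ c a b, a ≠ b → ov (v (c, a)) (v (c, b)) = 0
  unb : ∀ c e a b, c ≠ e → ov (v (c, a)) (v (e, b)) * conj (ov (v (c, a)) (v (e, b))) = (d : ℂ)⁻¹
  compl : ∀ c i j, ∑ a, v (c, a) i * conj (v (c, a) j) = if i = j then 1 else 0

/-- The projection. -/
noncomputable def T (v : Vecs d) (X : Matrix (Fin d) (Fin d) ℂ) : Matrix (Fin d) (Fin d) ℂ :=
  X + X.trace • 1 - ∑ p, qF (v p) X • proj (v p)

variable {v : Vecs d} (hv : Full v)

lemma T_add (X Y : Matrix (Fin d) (Fin d) ℂ) : T v (X + Y) = T v X + T v Y := by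
  simp only [T, Matrix.trace_add, qF_add, add_smul, Finset.sum_add_distrib]
  abel

lemma T_smul (z : ℂ) (X : Matrix (Fin d) (Fin d) ℂ) : T v (z • X) = z • T v X := by
  simp only [T, Matrix.trace_smul, qF_smul, smul_eq_mul, smul_sub, smul_add, Finset.smul_sum,
    smul_smul]

/-- The projection as a linear map. -/
noncomputable def TL (v : Vecs d) : Matrix (Fin d) (Fin d) ℂ →ₗ[ℂ] Matrix (Fin d) (Fin d) ℂ where
  toFun := T v
  map_add' := T_add
  map_smul' := T_smul

lemma T_apply (X : Matrix (Fin d) (Fin d) ℂ) (i j : Fin d) :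
    T v X i j = X i j + (if i = j then X.trace else 0) -
      ∑ p, qF (v p) X * (v p i * conj (v p j)) := by
  simp [T, proj, Matrix.sum_apply, Matrix.one_apply]

lemma T_conjTranspose (X : Matrix (Fin d) (Fin d) ℂ) : T v Xᴴ = (T v X)ᴴ := by
  ext i j
  simp only [Matrix.conjTranspose_apply, RCLike.star_def, T_apply, Matrix.trace_conjTranspose,
    qF_conjTranspose, map_sub, map_add, map_sum, map_mul, Complex.conj_conj]
  congr 1
  · congr 1
    rcases eq_or_ne i j with rfl | h
    · simp
    · simp [h, h.symm]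
  · exact Finset.sum_congr rfl fun p _ => by ring

include hv

lemma sum_qF_basis (c : Fin d) (X : Matrix (Fin d) (Fin d) ℂ) :
    ∑ a, qF (v (c, a)) X = X.trace := by
  simp only [qF, Matrix.trace, Matrix.diag]
  rw [Finset.sum_comm]
  refine Finset.sum_congr rfl fun i _ => ?_
  rw [Finset.sum_comm]
  calc ∑ j, ∑ a, conj (v (c, a) i) * X i j * v (c, a) j
      = ∑ j, X i j * ∑ a, v (c, a) j * conj (v (c, a) i) := Finset.sum_congr rfl fun j _ => by
        rw [Finset.mul_sum]; exact Finset.sum_congr rfl fun a _ => by ring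
    _ = X i i := by simp [hv.compl]

lemma sum_qF (X : Matrix (Fin d) (Fin d) ℂ) : ∑ p, qF (v p) X = (d : ℂ) * X.trace := by
  rw [Fintype.sum_prod_type]
  simp [sum_qF_basis hv]

lemma sum_proj : ∑ p, proj (v p) = (d : ℂ) • (1 : Matrix (Fin d) (Fin d) ℂ) := by
  ext i j
  rw [Matrix.sum_apply, Fintype.sum_prod_type]
  simp only [proj, Matrix.of_apply, hv.compl, Matrix.smul_apply, Matrix.one_apply, smul_eq_mul]
  rcases eq_or_ne i j with rfl | h <;> simp_all

lemma qF_T (X : Matrix (Fin d) (Fin d) ℂ) (p : Fin d × Fin d) :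
    qF (v p) (T v X) = X.trace / (d : ℂ) := by
  obtain ⟨c, a⟩ := p
  have e : ∀ e : Fin d, ∑ b, qF (v (e, b)) X * qF (v (c, a)) (proj (v (e, b))) =
      if e = c then qF (v (c, a)) X else X.trace / (d : ℂ) := by
    intro e
    rcases eq_or_ne e c with rfl | he
    · rw [if_pos rfl, Finset.sum_eq_single a]
      · rw [qF_proj, hv.self]; simp
      · intro b _ hb; rw [qF_proj, hv.orth _ _ _ (Ne.symm hb)]; simp
      · simp
    · rw [if_neg he, ← sum_qF_basis hv e X, div_eq_mul_inv, Finset.sum_mul]
      exact Finset.sum_congr rfl fun b _ => by rw [qF_proj, hv.unb _ _ _ _ (Ne.symm he)]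
  have hd : (d : ℂ) ≠ 0 := Nat.cast_ne_zero.2 hv.pos.ne'
  simp only [T, qF_sub, qF_add, qF_sum, qF_smul, qF_one, hv.self, mul_one,
    Fintype.sum_prod_type, e]
  have s : ∀ (A B : ℂ), ∑ e : Fin d, (if e = c then A else B) = A + ((d : ℂ) - 1) * B := by
    intro A B
    have : ∀ e : Fin d, (if e = c then A else B) = B + if e = c then A - B else 0 := fun e => by
      split_ifs <;> ring
    simp [this, Finset.sum_add_distrib]
    ring
  rw [s]
  field_simp
  ring

lemma trace_T (X : Matrix (Fin d) (Fin d) ℂ) : (T v X).trace = X.trace := by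
  have hp : ∀ p, (proj (v p)).trace = 1 := fun p => by
    rw [← hv.self p, Matrix.trace, ov]
    exact Finset.sum_congr rfl fun i _ => by simp [proj, mul_comm]
  simp only [T, Matrix.trace_sub, Matrix.trace_add, Matrix.trace_smul, Matrix.trace_one,
    Fintype.card_fin, Matrix.trace_sum, hp, smul_eq_mul, mul_one, sum_qF hv]
  ring

lemma T_T (X : Matrix (Fin d) (Fin d) ℂ) : T v (T v X) = T v X := by
  conv_lhs => rw [T]
  simp only [trace_T hv, qF_T hv, ← Finset.smul_sum, sum_proj hv, smul_smul,
    div_mul_cancel₀ _ (Nat.cast_ne_zero.2 hv.pos.ne' : (d : ℂ) ≠ 0)]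
  abel

omit hv

/-- A matrix unit. -/
noncomputable def unit' (a b : Fin d) : Matrix (Fin d) (Fin d) ℂ := Matrix.single a b 1

lemma qF_unit (w : Fin d → ℂ) (a b : Fin d) : qF w (unit' a b) = conj (w a) * w b := by
  simp only [qF, unit', Matrix.single_apply, mul_ite, mul_one, mul_zero, ite_mul, zero_mul]
  rw [Finset.sum_eq_single a]
  · rw [Finset.sum_eq_single b] <;> simp +contextual [eq_comm]
  · intro i _ hi; simp [Ne.symm hi]
  · simp

lemma trace_unit (a b : Fin d) : (unit' a b).trace = if a = b then 1 else 0 := by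
  rcases eq_or_ne a b with rfl | h
  · simp [unit']
  · simp [unit', Matrix.trace_single_eq_of_ne _ _ _ h, h]

lemma T_unit (a b i j : Fin d) :
    T v (unit' a b) i j = (if a = i ∧ b = j then 1 else 0) +
      (if i = j then if a = b then 1 else 0 else 0) -
      ∑ p, conj (v p a) * v p b * (v p i * conj (v p j)) := by
  simp only [T_apply, qF_unit, trace_unit]
  simp only [unit', Matrix.single_apply]

lemma conj_T_unit (a b i j : Fin d) : conj (T v (unit' a b) i j) = T v (unit' i j) a b := by
  simp only [T_unit, map_sub, map_add, map_sum, map_mul, Complex.conj_conj, apply_ite conj,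
    map_one, map_zero]
  congr 1
  · congr 1
    · exact if_congr ⟨fun h => ⟨h.1.symm, h.2.symm⟩, fun h => ⟨h.1.symm, h.2.symm⟩⟩ rfl rfl
    · split_ifs <;> rfl
  · exact Finset.sum_congr rfl fun p _ => by ring

lemma sum_unit (X : Matrix (Fin d) (Fin d) ℂ) : ∑ i, ∑ j, X i j • unit' i j = X := by
  ext k l
  simp only [Matrix.sum_apply, Matrix.smul_apply, unit', Matrix.single_apply, smul_eq_mul,
    mul_ite, mul_one, mul_zero]
  rw [Finset.sum_eq_single k]
  · rw [Finset.sum_eq_single l] <;> simp +contextual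
  · intro i _ hi; simp [hi]
  · simp

include hv

lemma sum_unit_mul (B : Matrix (Fin d) (Fin d) ℂ) :
    ∑ a, ∑ b, (T v (unit' a b) * B) a b = B.trace := by
  have h3 : ∑ a, ∑ b, ∑ k, (∑ p, conj (v p a) * v p b * (v p a * conj (v p k))) * B k b =
      (d : ℂ) * B.trace := by
    rw [← sum_qF hv B]
    calc _ = ∑ a, ∑ p, conj (v p a) * v p a * ∑ k, ∑ b, conj (v p k) * B k b * v p b := by
          refine Finset.sum_congr rfl fun a _ => ?_
          simp only [Finset.sum_mul, Finset.mul_sum]
          rw [Finset.sum_congr rfl fun b _ => Finset.sum_comm, Finset.sum_comm]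
          refine Finset.sum_congr rfl fun p _ => ?_
          rw [Finset.sum_comm]
          exact Finset.sum_congr rfl fun k _ => Finset.sum_congr rfl fun b _ => by ring
      _ = ∑ p, qF (v p) B := by
          rw [Finset.sum_comm]
          refine Finset.sum_congr rfl fun p _ => ?_
          rw [← Finset.sum_mul]
          have := hv.self p
          rw [ov] at this
          rw [this, one_mul]
          rfl
  simp only [Matrix.mul_apply, T_unit, sub_mul, add_mul, Finset.sum_sub_distrib,
    Finset.sum_add_distrib, h3]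
  simp [Matrix.trace]

lemma sum_mul_unit (B : Matrix (Fin d) (Fin d) ℂ) :
    ∑ a, ∑ b, (B * T v (unit' a b)) a b = B.trace := by
  have h3 : ∑ a, ∑ b, ∑ k, B a k * ∑ p, conj (v p a) * v p b * (v p k * conj (v p b)) =
      (d : ℂ) * B.trace := by
    rw [← sum_qF hv B, Finset.sum_comm]
    calc _ = ∑ b, ∑ p, conj (v p b) * v p b * ∑ a, ∑ k, conj (v p a) * B a k * v p k := by
          refine Finset.sum_congr rfl fun b _ => ?_
          simp only [Finset.mul_sum]
          rw [Finset.sum_congr rfl fun a _ => Finset.sum_comm, Finset.sum_comm]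
          exact Finset.sum_congr rfl fun p _ => Finset.sum_congr rfl fun a _ =>
            Finset.sum_congr rfl fun k _ => by ring
      _ = ∑ p, qF (v p) B := by
          rw [Finset.sum_comm]
          refine Finset.sum_congr rfl fun p _ => ?_
          rw [← Finset.sum_mul]
          have := hv.self p
          rw [ov] at this
          rw [this, one_mul]
          rfl
  simp only [Matrix.mul_apply, T_unit, mul_sub, mul_add, Finset.sum_sub_distrib,
    Finset.sum_add_distrib, h3]
  simp [Matrix.trace]
  rw [Finset.mul_sum]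
  ring

lemma sum_mul_unit_mul (A : Matrix (Fin d) (Fin d) ℂ) (hA : ∀ p, qF (v p) A = A.trace / (d : ℂ)) :
    ∑ a, ∑ b, (A * T v (unit' a b) * A) a b = (A * A).trace := by
  have h3 : ∑ a, ∑ b, ∑ l, ∑ k,
      A a k * (∑ p, conj (v p a) * v p b * (v p k * conj (v p l))) * A l b =
      A.trace * A.trace := by
    calc _ = ∑ p, qF (v p) A * qF (v p) A := by
          simp only [qF, Finset.sum_mul, Finset.mul_sum]
          rw [Finset.sum_congr rfl fun a _ => Finset.sum_congr rfl fun b _ =>
            Finset.sum_congr rfl fun l _ => Finset.sum_comm]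
          rw [Finset.sum_congr rfl fun a _ => Finset.sum_congr rfl fun b _ => Finset.sum_comm]
          rw [Finset.sum_congr rfl fun a _ => Finset.sum_comm]
          rw [Finset.sum_comm]
          refine Finset.sum_congr rfl fun p _ => ?_
          rw [Finset.sum_congr rfl fun a _ => (Finset.sum_congr rfl fun b _ => Finset.sum_comm)]
          rw [Finset.sum_congr rfl fun a _ => Finset.sum_comm]
          refine Finset.sum_congr rfl fun a _ => Finset.sum_congr rfl fun k _ => ?_
          rw [Finset.sum_comm]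
          exact Finset.sum_congr rfl fun l _ => Finset.sum_congr rfl fun b _ => by ring
      _ = A.trace * A.trace := by
          have hd : (d : ℂ) ≠ 0 := Nat.cast_ne_zero.2 hv.pos.ne'
          simp [hA]
          field_simp
  simp only [Matrix.mul_apply, T_unit, Finset.sum_mul, mul_sub, mul_add, sub_mul, add_mul,
    Finset.sum_sub_distrib, Finset.sum_add_distrib]
  rw [h3]
  simp [Matrix.trace, Matrix.mul_apply, ite_and, Finset.mul_sum, Finset.sum_mul]
  rw [Finset.sum_comm (f := fun x i => A i i * A x x)]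
  ring

/-- Matrices in the image commute with every Hermitian matrix in it. -/
lemma commute_T (A : Matrix (Fin d) (Fin d) ℂ) (hA : A.IsHermitian)
    (hq : ∀ p, qF (v p) A = A.trace / (d : ℂ)) (X : Matrix (Fin d) (Fin d) ℂ) :
    T v X * A = A * T v X := by
  let L : Matrix (Fin d) (Fin d) ℂ →ₗ[ℂ] Matrix (Fin d) (Fin d) ℂ :=
    LinearMap.mulRight ℂ (A * A) + LinearMap.mulLeft ℂ (A * A) -
      (2 : ℂ) • (LinearMap.mulLeft ℂ A).comp (LinearMap.mulRight ℂ A)
  have hL : ∀ Y, L Y = Y * (A * A) + A * A * Y - (2 : ℂ) • (A * Y * A) := fun Y => by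
    simp [L, mul_assoc]
  have h0 : ∑ a, ∑ b, L (T v (unit' a b)) a b = 0 := by
    simp only [hL, Matrix.sub_apply, Matrix.add_apply, Matrix.smul_apply, smul_eq_mul,
      Finset.sum_sub_distrib, Finset.sum_add_distrib, ← Finset.mul_sum,
      sum_unit_mul hv, sum_mul_unit hv, sum_mul_unit_mul hv A hq]
    ring
  have key : ∑ a, ∑ b, ((T v (unit' a b) * A - A * T v (unit' a b))ᴴ *
      (T v (unit' a b) * A - A * T v (unit' a b))).trace = 0 := by
    have e : ∀ Y : Matrix (Fin d) (Fin d) ℂ,
        ((Y * A - A * Y)ᴴ * (Y * A - A * Y)).trace = ∑ i, ∑ j, conj (Y i j) * L Y i j := by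
      intro Y
      have e1 : ∑ i, ∑ j, conj (Y i j) * L Y i j = (Yᴴ * L Y).trace := by
        simp only [Matrix.trace, Matrix.diag, Matrix.mul_apply, Matrix.conjTranspose_apply,
          RCLike.star_def]
        exact Finset.sum_comm
      rw [e1, hL, Matrix.conjTranspose_sub, Matrix.conjTranspose_mul, Matrix.conjTranspose_mul,
        hA.eq]
      simp only [Matrix.sub_mul, Matrix.mul_sub, Matrix.mul_add, Matrix.trace_sub,
        Matrix.trace_add, Matrix.mul_smul, Matrix.trace_smul, smul_eq_mul]
      rw [show A * Yᴴ * (Y * A) = A * (Yᴴ * Y * A) by simp [mul_assoc],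
        Matrix.trace_mul_comm A (Yᴴ * Y * A),
        show A * Yᴴ * (A * Y) = A * (Yᴴ * A * Y) by simp [mul_assoc],
        Matrix.trace_mul_comm A (Yᴴ * A * Y)]
      simp only [mul_assoc]
      ring
    simp only [e]
    calc ∑ a, ∑ b, ∑ i, ∑ j, conj (T v (unit' a b) i j) * L (T v (unit' a b)) i j
        = ∑ i, ∑ j, L (TL v (∑ a, ∑ b, T v (unit' i j) a b • unit' a b)) i j := by
          simp only [map_sum, map_smul, Matrix.sum_apply, Matrix.smul_apply, smul_eq_mul,
            conj_T_unit]
          rw [Finset.sum_congr rfl fun a _ => Finset.sum_comm, Finset.sum_comm]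
          refine Finset.sum_congr rfl fun i _ => ?_
          rw [Finset.sum_congr rfl fun a _ => Finset.sum_comm, Finset.sum_comm]
          rfl
      _ = 0 := by
          simp only [sum_unit]
          show ∑ i, ∑ j, L (T v (T v (unit' i j))) i j = 0
          simp only [T_T hv]
          exact h0
  have hz : ∀ a b, T v (unit' a b) * A = A * T v (unit' a b) := by
    have nn : ∀ Z : Matrix (Fin d) (Fin d) ℂ,
        (Zᴴ * Z).trace = ((∑ j, ∑ i, Complex.normSq (Z i j) : ℝ) : ℂ) := by
      intro Z
      simp [Matrix.trace, Matrix.mul_apply, Complex.normSq_eq_conj_mul_self]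
    simp only [nn, ← Complex.ofReal_sum, Complex.ofReal_eq_zero] at key
    intro a b
    have k1 := (Finset.sum_eq_zero_iff_of_nonneg fun a _ => Finset.sum_nonneg fun b _ =>
      Finset.sum_nonneg fun j _ => Finset.sum_nonneg fun i _ => Complex.normSq_nonneg _).1 key a
      (Finset.mem_univ a)
    have k2 := (Finset.sum_eq_zero_iff_of_nonneg fun b _ =>
      Finset.sum_nonneg fun j _ => Finset.sum_nonneg fun i _ => Complex.normSq_nonneg _).1 k1 b
      (Finset.mem_univ b)
    refine sub_eq_zero.1 (Matrix.ext fun i j => ?_)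
    have k3 := (Finset.sum_eq_zero_iff_of_nonneg fun j _ =>
      Finset.sum_nonneg fun i _ => Complex.normSq_nonneg _).1 k2 j (Finset.mem_univ j)
    exact Complex.normSq_eq_zero.1
      ((Finset.sum_eq_zero_iff_of_nonneg fun i _ => Complex.normSq_nonneg _).1 k3 i
        (Finset.mem_univ i))
  rw [← sum_unit X]
  show TL v _ * A = A * TL v _
  simp only [map_sum, map_smul, Finset.sum_mul, Finset.mul_sum, smul_mul_assoc, mul_smul_comm]
  exact Finset.sum_congr rfl fun a _ => Finset.sum_congr rfl fun b _ => by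
    rw [show TL v (unit' a b) = T v (unit' a b) from rfl, hz]

lemma trace_TL : ∑ a, ∑ b, T v (unit' a b) a b = (d : ℂ) := by
  have h3 : ∑ a, ∑ b, ∑ p, conj (v p a) * v p b * (v p a * conj (v p b)) = (d : ℂ) * (d : ℂ) := by
    calc _ = ∑ p, ov (v p) (v p) * ov (v p) (v p) := by
          simp only [ov, Finset.sum_mul_sum]
          rw [Finset.sum_congr rfl fun a _ => Finset.sum_comm, Finset.sum_comm]
          exact Finset.sum_congr rfl fun p _ => Finset.sum_congr rfl fun a _ =>
            Finset.sum_congr rfl fun b _ => by ring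
      _ = (d : ℂ) * (d : ℂ) := by simp [hv.self]
  simp only [T_unit, Finset.sum_sub_distrib, Finset.sum_add_distrib, h3]
  simp

/-- A common eigenbasis of the image is unbiased to all the bases. -/
lemma unbiased_of_eigen (f : Fin d → Fin d → ℂ)
    (hf : ∀ k, ov (f k) (f k) = 1)
    (hfc : ∀ i j, ∑ k, f k i * conj (f k j) = if i = j then 1 else 0)
    (he : ∀ X k, ∃ μ : ℂ, T v X *ᵥ f k = μ • f k) (p : Fin d × Fin d) (k : Fin d) :
    Complex.normSq (ov (v p) (f k)) = 1 / (d : ℝ) := by
  have hd : (d : ℝ) ≠ 0 := Nat.cast_ne_zero.2 hv.pos.ne'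
  have hspec : ∀ X, T v X = ∑ k, qF (f k) (T v X) • proj (f k) := by
    intro X
    have hm : ∀ k i, ∑ j, T v X i j * f k j = qF (f k) (T v X) * f k i := by
      intro k i
      obtain ⟨μ, hμ⟩ := he X k
      have e1 : ∀ i, ∑ j, T v X i j * f k j = μ * f k i := fun i => by
        simpa [Matrix.mulVec, dotProduct] using congrFun hμ i
      have e2 : qF (f k) (T v X) = μ := by
        calc qF (f k) (T v X) = ∑ i, conj (f k i) * ∑ j, T v X i j * f k j :=
              Finset.sum_congr rfl fun i _ => by
                rw [Finset.mul_sum]; exact Finset.sum_congr rfl fun j _ => by ring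
          _ = μ * ov (f k) (f k) := by
              simp only [e1, ov, Finset.mul_sum]
              exact Finset.sum_congr rfl fun i _ => by ring
          _ = μ := by rw [hf, mul_one]
      rw [e1, e2]
    ext i j
    simp only [Matrix.sum_apply, Matrix.smul_apply, proj, Matrix.of_apply, smul_eq_mul, ← mul_assoc,
      ← hm, Finset.sum_mul]
    rw [Finset.sum_comm]
    simp [mul_assoc, ← Finset.mul_sum, hfc]
  have htr : ∑ k, qF (f k) (T v (proj (f k))) = (d : ℂ) := by
    rw [← trace_TL hv]
    have e : ∀ a b, T v (unit' a b) a b =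
        ∑ k, qF (f k) (T v (unit' a b)) * proj (f k) a b := fun a b => by
      conv_lhs => rw [hspec (unit' a b)]
      simp [Matrix.sum_apply]
    simp only [e]
    rw [Finset.sum_congr rfl fun a _ => Finset.sum_comm, Finset.sum_comm]
    refine (Finset.sum_congr rfl fun k _ => ?_).symm
    conv_rhs => rw [← sum_unit (proj (f k))]
    show _ = qF (f k) (TL v _)
    simp only [map_sum, map_smul, qF_sum, qF_smul]
    exact Finset.sum_congr rfl fun a _ => Finset.sum_congr rfl fun b _ => mul_comm _ _
  set x : Fin d × Fin d → Fin d → ℝ := fun p k => Complex.normSq (ov (v p) (f k)) with hx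
  have hsq : ∀ k, qF (f k) (T v (proj (f k))) = 2 - ((∑ p, x p k ^ 2 : ℝ) : ℂ) := by
    intro k
    have htp : (proj (f k)).trace = 1 := by
      rw [← hf k, Matrix.trace, ov]
      exact Finset.sum_congr rfl fun i _ => by simp [proj, mul_comm]
    simp only [T, qF_sub, qF_add, qF_sum, qF_smul, qF_one, qF_proj, hf, htp, map_one, mul_one]
    push_cast
    norm_num
    refine Finset.sum_congr rfl fun p _ => ?_
    have e : ov (f k) (v p) = conj (ov (v p) (f k)) := by
      simp [ov, map_sum, mul_comm]
    rw [hx, e, Complex.conj_conj, Complex.normSq_eq_conj_mul_self]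
    ring
  have h1 : ∀ k, ∑ p, x p k = (d : ℝ) := by
    intro k
    have h := sum_qF hv (proj (f k))
    have htp : (proj (f k)).trace = 1 := by
      rw [← hf k, Matrix.trace, ov]
      exact Finset.sum_congr rfl fun i _ => by simp [proj, mul_comm]
    rw [htp, mul_one] at h
    simp only [qF_proj, Complex.mul_conj] at h
    exact_mod_cast h
  simp only [hsq, Finset.sum_sub_distrib] at htr
  have h2 : ∑ k, ∑ p, x p k ^ 2 = (d : ℝ) := by
    have : ((∑ k, ∑ p, x p k ^ 2 : ℝ) : ℂ) = (d : ℂ) := by
      simp at htr ⊢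
      linear_combination -htr
    exact_mod_cast this
  have h0 : ∑ k, ∑ p, (x p k - 1 / (d : ℝ)) ^ 2 = 0 := by
    simp only [sub_sq, Finset.sum_add_distrib, Finset.sum_sub_distrib, h2, ← Finset.sum_mul,
      ← Finset.mul_sum, h1]
    simp
    field_simp
    ring
  have := (Finset.sum_eq_zero_iff_of_nonneg fun k _ => Finset.sum_nonneg fun p _ =>
    sq_nonneg _).1 h0 k (Finset.mem_univ k)
  have := (Finset.sum_eq_zero_iff_of_nonneg fun p _ => sq_nonneg _).1 this p (Finset.mem_univ p)
  exact sub_eq_zero.1 (pow_eq_zero_iff (n := 2) (by norm_num) |>.1 this)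

omit hv

/-- As many unbiased bases as the dimension extend to one more. -/
theorem exists_extension (hd : 0 < d)
    (B : Fin d → OrthonormalBasis (Fin d) ℂ (EuclideanSpace ℂ (Fin d)))
    (hB : ∀ c e, c ≠ e → ∀ i j, ‖⟪B c i, B e j⟫_ℂ‖ ^ 2 = 1 / (d : ℝ)) :
    ∃ F : OrthonormalBasis (Fin d) ℂ (EuclideanSpace ℂ (Fin d)),
      ∀ c i j, ‖⟪B c i, F j⟫_ℂ‖ ^ 2 = 1 / (d : ℝ) := by
  classical
  let v : Vecs d := fun p i => B p.1 p.2 i
  have hov : ∀ x y : EuclideanSpace ℂ (Fin d), ov (fun i => x i) (fun i => y i) = ⟪x, y⟫_ℂ := by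
    intro x y
    simp [ov, PiLp.inner_apply, mul_comm]
  have hcompl : ∀ (b : OrthonormalBasis (Fin d) ℂ (EuclideanSpace ℂ (Fin d))) (i j : Fin d),
      ∑ a, b a i * conj (b a j) = if i = j then 1 else 0 := by
    intro b i j
    have := b.sum_inner_mul_inner (EuclideanSpace.single i (1 : ℂ)) (EuclideanSpace.single j 1)
    simpa [EuclideanSpace.inner_single_left, EuclideanSpace.inner_single_right,
      Pi.single_apply, eq_comm] using this
  have hv : Full v :=
    { pos := hd
      self := fun p => by
        simp only [v, hov]; exact (orthonormal_iff_ite.1 (B p.1).orthonormal p.2 p.2).trans (if_pos rfl)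
      orth := fun c a b hab => by
        simp only [v, hov]; exact (B c).orthonormal.2 hab
      unb := fun c e a b hce => by
        simp only [v, hov, Complex.mul_conj, Complex.normSq_eq_norm_sq, hB c e hce a b]
        simp
      compl := fun c => hcompl (B c) }
  let S := {X : Matrix (Fin d) (Fin d) ℂ // X.IsHermitian}
  let Op : S → Module.End ℂ (EuclideanSpace ℂ (Fin d)) := fun X =>
    Matrix.toEuclideanLin (T v X.1)
  have hher : ∀ X : S, (T v X.1).IsHermitian := fun X => by
    show (T v X.1)ᴴ = T v X.1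
    rw [← T_conjTranspose, X.2.eq]
  have hsym : ∀ X, (Op X).IsSymmetric := fun X => (Matrix.isSymmetric_toEuclideanLin_iff).2 (hher X)
  have hcom : Pairwise (Commute on Op) := fun X Y _ => by
    have h := commute_T hv (T v Y.1) (hher Y)
      (fun p => by rw [qF_T hv, trace_T hv]) X.1
    show Op X * Op Y = Op Y * Op X
    refine LinearMap.ext fun z => ?_
    apply (WithLp.linearEquiv 2 ℂ (Fin d → ℂ)).injective
    simp [Op, Matrix.toEuclideanLin_apply, Matrix.mulVec_mulVec, h]
  have hint := LinearMap.IsSymmetric.directSum_isInternal_of_pairwise_commute hsym hcom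
  let b := hint.collectedBasis fun χ => (stdOrthonormalBasis ℂ _).toBasis
  have hon : Orthonormal ℂ b := by
    refine DirectSum.IsInternal.collectedBasis_orthonormal
      (LinearMap.IsSymmetric.orthogonalFamily_iInf_eigenspaces hsym) hint fun χ => ?_
    rw [OrthonormalBasis.coe_toBasis]
    exact (stdOrthonormalBasis ℂ _).orthonormal
  haveI := FiniteDimensional.fintypeBasisIndex b
  have hcard := (Module.finrank_eq_card_basis b).symm.trans finrank_euclideanSpace_fin
  let e := Fintype.equivFinOfCardEq hcard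
  let F := (b.toOrthonormalBasis hon).reindex e
  refine ⟨F, fun c i j => ?_⟩
  have he : ∀ X k, ∃ μ : ℂ, T v X *ᵥ (fun i => F k i) = μ • fun i => F k i := by
    have hH : ∀ (X : S) k, ∃ μ : ℂ, T v X.1 *ᵥ (fun i => F k i) = μ • fun i => F k i := by
      intro X k
      have hm : F k ∈ ⨅ X, Module.End.eigenspace (Op X) ((e.symm k).1 X) := by
        simp only [F, OrthonormalBasis.reindex_apply, Module.Basis.coe_toOrthonormalBasis]
        exact hint.collectedBasis_mem _ _
      have h := Module.End.mem_eigenspace_iff.1 ((Submodule.mem_iInf _).1 hm X)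
      refine ⟨(e.symm k).1 X, funext fun i => ?_⟩
      have := congrArg (fun z : EuclideanSpace ℂ (Fin d) => z i) h
      simpa [Op, Matrix.toEuclideanLin_apply] using this
    intro X k
    obtain ⟨μ, hμ⟩ := hH ⟨X + Xᴴ, Matrix.isHermitian_add_transpose_self X⟩ k
    obtain ⟨ν, hν⟩ := hH ⟨Complex.I • (X - Xᴴ), by
      show (Complex.I • (X - Xᴴ))ᴴ = _
      simp [Matrix.conjTranspose_sub, smul_sub, neg_add_eq_sub]⟩ k
    refine ⟨(μ - Complex.I * ν) / 2, ?_⟩
    have e : X = (1 / 2 : ℂ) • (X + Xᴴ) + (-Complex.I / 2) • (Complex.I • (X - Xᴴ)) := by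
      rw [smul_smul, show -Complex.I / 2 * Complex.I = (1 / 2 : ℂ) by
        rw [div_mul_eq_mul_div, neg_mul, Complex.I_mul_I, neg_neg]]
      rw [← smul_add, add_add_sub_cancel, ← two_smul ℂ X, smul_smul]
      norm_num
    rw [e, T_add, T_smul, T_smul, Matrix.add_mulVec, Matrix.smul_mulVec, Matrix.smul_mulVec, hμ,
      hν, smul_smul, smul_smul, ← add_smul]
    congr 1
    ring
  have := unbiased_of_eigen hv (fun k i => F k i)
    (fun k => by rw [hov]; exact (orthonormal_iff_ite.1 F.orthonormal k k).trans (if_pos rfl))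
    (hcompl F) he (c, i) j
  rw [← Complex.normSq_eq_norm_sq, ← hov]
  exact this

end Vale.Agent.P355.Weiner
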