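import Mathlib
import Vale.Agent.P355.Weiner

/-!
If seven unbiased bases of `ℂ^6` are impossible then so are six, by Weiner's extension.
-/

namespace Vale.Agent.P355

open scoped InnerProductSpace

/-- A bound of six on the number of bases gives a bound of five. -/
theorem card_le_five_of_card_le_six
    (h6 : ∀ (k : ℕ) (B : Fin k → OrthonormalBasis (Fin 6) ℂ (EuclideanSpace ℂ (Fin 6))),
      (∀ c d, c ≠ d → ∀ i j, ‖⟪B c i, B d j⟫_ℂ‖ ^ 2 = 1 / 6) → k ≤ 6)
    (k : ℕ) (B : Fin k → OrthonormalBasis (Fin 6) ℂ (EuclideanSpace ℂ (Fin 6)))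
    (hB : ∀ c d, c ≠ d → ∀ i j, ‖⟪B c i, B d j⟫_ℂ‖ ^ 2 = 1 / 6) : k ≤ 5 := by
  by_contra hk
  let C : Fin 6 → OrthonormalBasis (Fin 6) ℂ (EuclideanSpace ℂ (Fin 6)) :=
    fun c => B (Fin.castLE (by omega) c)
  have hC : ∀ c d, c ≠ d → ∀ i j, ‖⟪C c i, C d j⟫_ℂ‖ ^ 2 = 1 / 6 := fun c d hcd =>
    hB _ _ fun h => hcd (Fin.castLE_injective _ h)
  obtain ⟨F, hF⟩ := Weiner.exists_extension (d := 6) (by norm_num) C
    (fun c d hcd i j => by simpa using hC c d hcd i j)
  have h7 : (7 : ℕ) ≤ 6 := h6 7 (Fin.snoc C F) fun c d hcd i j => by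
    induction c using Fin.lastCases with
    | last =>
      induction d using Fin.lastCases with
      | last => exact absurd rfl hcd
      | cast d =>
        simp only [Fin.snoc_last, Fin.snoc_castSucc]
        rw [← inner_conj_symm, RCLike.norm_conj]
        simpa using hF d j i
    | cast c =>
      induction d using Fin.lastCases with
      | last =>
        simp only [Fin.snoc_last, Fin.snoc_castSucc]
        simpa using hF c i j
      | cast d =>
        simp only [Fin.snoc_castSucc]
        exact hC c d (fun h => hcd (congrArg Fin.castSucc h)) i j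
  omega

end Vale.Agent.P355
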